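import Vale.Agent.P073.TR.ArcGlue

/-!
# P073, block TR: a finite family of conical arcs, at most two at each point, is a finite disjoint
union of circles and arcs
-/

open Set Metric Topology Filter

namespace P073.TR

open P073

variable {E : Type*} [NormedAddCommGroup E] [NormedSpace ℝ E]

universe w

/-- a family of arcs meeting only in common end points, at most two at each point -/
structure ArcFam {ι : Type w} (A : ι → Set E) (p q : ι → E) : Prop where
  ball : ∀ i, ConBall 1 (A i) {p i, q i}
  inter : ∀ i j, i ≠ j → A i ∩ A j ⊆ ({p i, q i} : Set E) ∩ {p j, q j}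
  three : ∀ i j k, i ≠ j → i ≠ k → j ≠ k → ∀ x, x ∈ A i → x ∈ A j → x ∉ A k

/-- a free end of the family: an end point of one arc which is in no other arc -/
def FreeEnd {ι : Type w} (A : ι → Set E) (p q : ι → E) (u : E) : Prop :=
  ∃ i, (u = p i ∨ u = q i) ∧ ∀ i', u ∈ A i' → i' = i

theorem ArcFam.exists_components_aux (n : ℕ) :
    ∀ (ι : Type w) [Fintype ι] (A : ι → Set E) (p q : ι → E), Fintype.card ι ≤ n →
      ArcFam A p q → ∃ (J : Type w) (_ : Finite J) (C : J → Set E),
        (⋃ j, C j) = (⋃ i, A i) ∧ (∀ j j', j ≠ j' → Disjoint (C j) (C j')) ∧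
        ∀ j, (ConSphere 1 (C j) ∧ ∀ x ∈ C j, ¬ FreeEnd A p q x) ∨
          ∃ u v, ConBall 1 (C j) {u, v} ∧ FreeEnd A p q u ∧ FreeEnd A p q v ∧
            ∀ x ∈ C j, FreeEnd A p q x → x = u ∨ x = v := by
  classical
  induction n with
  | zero =>
    intro ι _ A p q hn h
    have he : IsEmpty ι := Fintype.card_eq_zero_iff.1 (Nat.le_zero.1 hn)
    exact ⟨ι, inferInstance, A, rfl, fun j => (he.false j).elim, fun j => (he.false j).elim⟩
  | succ n ih =>
    intro ι _ A p q hn h
    by_cases hdis : ∀ i j, i ≠ j → Disjoint (A i) (A j)
    · refine ⟨ι, inferInstance, A, rfl, hdis, fun i => Or.inr ⟨p i, q i, h.ball i, ?_, ?_, ?_⟩⟩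
      · refine ⟨i, Or.inl rfl, fun i' hi' => ?_⟩
        by_contra hne
        exact disjoint_left.1 (hdis i' i hne) hi' (arc_left (h.ball i))
      · refine ⟨i, Or.inr rfl, fun i' hi' => ?_⟩
        by_contra hne
        exact disjoint_left.1 (hdis i' i hne) hi' (arc_right (h.ball i))
      · rintro x hx ⟨k, hk, hk'⟩
        have := hk' i hx
        subst this
        exact hk
    · push Not at hdis
      obtain ⟨i, j, hij, hnd⟩ := hdis
      obtain ⟨x, hxi, hxj⟩ := not_disjoint_iff.1 hnd
      have hx := h.inter i j hij ⟨hxi, hxj⟩
      -- the other end points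
      obtain ⟨y, hy⟩ : ∃ y, ({p i, q i} : Set E) = {y, x} := by
        rcases hx.1 with h1 | h1
        · exact ⟨q i, by rw [h1, pair_comm]⟩
        · rw [mem_singleton_iff] at h1
          exact ⟨p i, by rw [h1]⟩
      obtain ⟨z, hz⟩ : ∃ z, ({p j, q j} : Set E) = {x, z} := by
        rcases hx.2 with h1 | h1
        · exact ⟨q j, by rw [h1]⟩
        · rw [mem_singleton_iff] at h1
          exact ⟨p j, by rw [h1, pair_comm]⟩
      have bi : ConBall 1 (A i) {y, x} := hy ▸ h.ball i
      have bj : ConBall 1 (A j) {x, z} := hz ▸ h.ball j
      have hyx := arc_ne bi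
      have hxz := arc_ne bj
      have hyend : y = p i ∨ y = q i := by
        have : y ∈ ({p i, q i} : Set E) := hy ▸ Or.inl rfl
        exact this
      have hzend : z = p j ∨ z = q j := by
        have : z ∈ ({p j, q j} : Set E) := hz ▸ Or.inr rfl
        exact this
      have hother : ∀ k, k ≠ i → k ≠ j → ∀ w ∈ A i, w ∈ A k → w = y ∧ (w = p k ∨ w = q k) := by
        intro k hki hkj w hw hwk
        have h1 := h.inter i k (Ne.symm hki) ⟨hw, hwk⟩
        rw [hy] at h1
        refine ⟨?_, h1.2⟩
        rcases h1.1 with h2 | h2
        · exact h2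
        · exfalso
          rw [mem_singleton_iff] at h2
          rw [h2] at hwk
          exact h.three i j k hij (Ne.symm hki) (Ne.symm hkj) x hxi hxj hwk
      have hother' : ∀ k, k ≠ i → k ≠ j → ∀ w ∈ A j, w ∈ A k → w = z ∧ (w = p k ∨ w = q k) := by
        intro k hki hkj w hw hwk
        have h1 := h.inter j k (Ne.symm hkj) ⟨hw, hwk⟩
        rw [hz] at h1
        refine ⟨?_, h1.2⟩
        rcases h1.1 with h2 | h2
        · exfalso
          rw [h2] at hwk
          exact h.three i j k hij (Ne.symm hki) (Ne.symm hkj) x hxi hxj hwk
        · exact h2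
      let ι' := {k : ι // k ≠ i ∧ k ≠ j}
      have hcard : Fintype.card ι' + 1 < Fintype.card ι := by
        have c1 : Fintype.card ι' < Fintype.card {k : ι // k ≠ i} := by
          have : Fintype.card ι' = Fintype.card {k : {k : ι // k ≠ i} // k.1 ≠ j} := by
            apply Fintype.card_congr
            exact (Equiv.subtypeSubtypeEquivSubtypeInter (fun k => k ≠ i) (fun k => k ≠ j)).symm
          rw [this]
          exact Fintype.card_subtype_lt (x := ⟨j, Ne.symm hij⟩) (by simp)
        have c2 : Fintype.card {k : ι // k ≠ i} < Fintype.card ι :=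
          Fintype.card_subtype_lt (x := i) (by simp)
        omega
      have hres : ArcFam (fun k : ι' => A k.1) (fun k => p k.1) (fun k => q k.1) := by
        refine ⟨fun k => h.ball k.1, fun k l hkl => h.inter k.1 l.1 ?_, ?_⟩
        · exact fun he => hkl (Subtype.ext he)
        · intro k l m h1 h2 h3
          exact h.three k.1 l.1 m.1 (fun he => h1 (Subtype.ext he)) (fun he => h2 (Subtype.ext he))
            (fun he => h3 (Subtype.ext he))
      have hunion : (⋃ k, A k) = (A i ∪ A j) ∪ ⋃ k : ι', A k.1 := by
        ext w
        simp only [mem_iUnion, mem_union]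
        constructor
        · rintro ⟨k, hk⟩
          by_cases h1 : k = i
          · subst h1; exact Or.inl (Or.inl hk)
          by_cases h2 : k = j
          · subst h2; exact Or.inl (Or.inr hk)
          exact Or.inr ⟨⟨k, h1, h2⟩, hk⟩
        · rintro ((hk | hk) | ⟨k, hk⟩)
          · exact ⟨i, hk⟩
          · exact ⟨j, hk⟩
          · exact ⟨k.1, hk⟩
      by_cases hyj : y ∈ A j
      · -- circle
        have hyz : y = z := by
          have h1 := (h.inter i j hij ⟨arc_left bi, hyj⟩).2
          rw [hz] at h1
          rcases h1 with h2 | h2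
          · exact (hyx h2).elim
          · exact h2
        subst hyz
        have hC : ConSphere 1 (A i ∪ A j) := by
          refine circle_union bi (arc_symm bj) ?_
          intro w hw
          have := (h.inter i j hij hw).1
          rwa [hy] at this
        have hno : ∀ k : ι', ∀ w ∈ A k.1, w ∉ A i ∪ A j := by
          rintro ⟨k, hki, hkj⟩ w hw (hw' | hw')
          · have h1 := (hother k hki hkj w hw' hw).1
            rw [h1] at hw
            exact h.three i j k hij (Ne.symm hki) (Ne.symm hkj) y (arc_left bi) hyj hw
          · have h1 := (hother' k hki hkj w hw' hw).1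
            rw [h1] at hw
            exact h.three i j k hij (Ne.symm hki) (Ne.symm hkj) y (arc_left bi) hyj hw
        obtain ⟨J, hJ, C, hCU, hCd, hCb⟩ := ih ι' (fun k => A k.1) (fun k => p k.1)
          (fun k => q k.1) (by omega) hres
        have hfree : ∀ u, FreeEnd (fun k : ι' => A k.1) (fun k => p k.1) (fun k => q k.1) u →
            FreeEnd A p q u := by
          rintro u ⟨k, hk, hk'⟩
          have huk : u ∈ A k.1 := by
            rcases hk with h1 | h1
            · rw [h1]; exact arc_left (h.ball k.1)
            · rw [h1]; exact arc_right (h.ball k.1)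
          refine ⟨k.1, hk, fun l hl => ?_⟩
          by_cases h1 : l = i
          · subst h1; exact (hno k u huk (Or.inl hl)).elim
          by_cases h2 : l = j
          · subst h2; exact (hno k u huk (Or.inr hl)).elim
          have := hk' ⟨l, h1, h2⟩ hl
          rw [← this]
        have hfree' : ∀ u, FreeEnd A p q u → u ∉ A i ∪ A j ∧
            FreeEnd (fun k : ι' => A k.1) (fun k => p k.1) (fun k => q k.1) u := by
          rintro u ⟨k, hk, hk'⟩
          have huk : u ∈ A k := by
            rcases hk with h1 | h1
            · rw [h1]; exact arc_left (h.ball k)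
            · rw [h1]; exact arc_right (h.ball k)
          have hki : k ≠ i := by
            rintro rfl
            have h2 : u ∈ ({y, x} : Set E) := hy ▸ hk
            rcases h2 with h3 | h3
            · rw [h3] at hk'; exact hij (hk' j hyj).symm
            · rw [mem_singleton_iff] at h3
              rw [h3] at hk'; exact hij (hk' j hxj).symm
          have hkj : k ≠ j := by
            rintro rfl
            have h2 : u ∈ ({x, y} : Set E) := hz ▸ hk
            rcases h2 with h3 | h3
            · rw [h3] at hk'; exact hij (hk' i hxi)
            · rw [mem_singleton_iff] at h3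
              rw [h3] at hk'; exact hij (hk' i (arc_left bi))
          refine ⟨?_, ⟨⟨k, hki, hkj⟩, hk, fun m hm => Subtype.ext (hk' m.1 hm)⟩⟩
          rintro (h1 | h1)
          · exact hki (hk' i h1).symm
          · exact hkj (hk' j h1).symm
        refine ⟨Option J, inferInstance, fun o => o.elim (A i ∪ A j) C, ?_, ?_, ?_⟩
        · rw [hunion, iUnion_option, ← hCU]; rfl
        · have key : ∀ l, Disjoint (A i ∪ A j) (C l) := by
            intro l
            rw [disjoint_left]
            intro w hw hwl
            have : w ∈ ⋃ k : ι', A k.1 := hCU ▸ mem_iUnion.2 ⟨l, hwl⟩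
            obtain ⟨k, hk⟩ := mem_iUnion.1 this
            exact hno k w hk hw
          rintro (_ | l) (_ | l') hll
          · exact (hll rfl).elim
          · exact key l'
          · exact (key l).symm
          · exact hCd l l' (fun he => hll (by rw [he]))
        · rintro (_ | l)
          · exact Or.inl ⟨hC, fun x hx hf => (hfree' x hf).1 hx⟩
          · rcases hCb l with ⟨h1, h1'⟩ | ⟨u, v, h1, h2, h3, h4⟩
            · exact Or.inl ⟨h1, fun x hx hf => h1' x hx (hfree' x hf).2⟩
            · exact Or.inr ⟨u, v, h1, hfree u h2, hfree v h3,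
                fun x hx hf => h4 x hx (hfree' x hf).2⟩
      · -- longer arc
        have hAB : A i ∩ A j ⊆ {x} := by
          intro w hw
          have h1 := (h.inter i j hij hw).1
          rw [hy] at h1
          rcases h1 with h2 | h2
          · rw [h2] at hw; exact (hyj hw.2).elim
          · exact h2
        have hB : ConBall 1 (A i ∪ A j) {y, z} := arc_union bi bj hAB
        have hzi : z ∉ A i := by
          intro hzi
          have : z ∈ ({x} : Set E) := hAB ⟨hzi, arc_right bj⟩
          exact hxz (mem_singleton_iff.1 this).symm
        have hnx : ∀ k, k ≠ i → k ≠ j → ∀ w ∈ A i ∪ A j, w ∈ A k →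
            (w = y ∨ w = z) ∧ (w = p k ∨ w = q k) := by
          rintro k hki hkj w (hw | hw) hwk
          · exact ⟨Or.inl (hother k hki hkj w hw hwk).1, (hother k hki hkj w hw hwk).2⟩
          · exact ⟨Or.inr (hother' k hki hkj w hw hwk).1, (hother' k hki hkj w hw hwk).2⟩
        let A' : Option ι' → Set E := fun o => o.elim (A i ∪ A j) (fun k => A k.1)
        let p' : Option ι' → E := fun o => o.elim y (fun k => p k.1)
        let q' : Option ι' → E := fun o => o.elim z (fun k => q k.1)
        have hfam : ArcFam A' p' q' := by
          refine ⟨?_, ?_, ?_⟩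
          · rintro (_ | k)
            · exact hB
            · exact h.ball k.1
          · rintro (_ | k) (_ | l) hkl
            · exact (hkl rfl).elim
            · rintro w ⟨hw1, hw2⟩
              obtain ⟨h1, h2⟩ := hnx l.1 l.2.1 l.2.2 w hw1 hw2
              exact ⟨h1, h2⟩
            · rintro w ⟨hw1, hw2⟩
              obtain ⟨h1, h2⟩ := hnx k.1 k.2.1 k.2.2 w hw2 hw1
              exact ⟨h2, h1⟩
            · exact hres.inter k l (fun he => hkl (by rw [he]))
          · have t1 : ∀ k l : ι', k ≠ l → ∀ w ∈ A i ∪ A j, w ∈ A k.1 → w ∉ A l.1 := by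
              rintro k l hkl w (hw | hw) hwk hwl
              · exact h.three i k.1 l.1 (Ne.symm k.2.1) (Ne.symm l.2.1)
                  (fun he => hkl (Subtype.ext he)) w hw hwk hwl
              · exact h.three j k.1 l.1 (Ne.symm k.2.2) (Ne.symm l.2.2)
                  (fun he => hkl (Subtype.ext he)) w hw hwk hwl
            rintro (_ | k) (_ | l) (_ | m) h1 h2 h3 w hw1 hw2 hw3
            · exact h1 rfl
            · exact h1 rfl
            · exact h2 rfl
            · exact t1 l m (fun he => h3 (by rw [he])) w hw1 hw2 hw3
            · exact h3 rfl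
            · exact t1 k m (fun he => h2 (by rw [he])) w hw2 hw1 hw3
            · exact t1 k l (fun he => h1 (by rw [he])) w hw3 hw1 hw2
            · exact hres.three k l m (fun he => h1 (by rw [he])) (fun he => h2 (by rw [he]))
                (fun he => h3 (by rw [he])) w hw1 hw2 hw3
        obtain ⟨J, hJ, C, hCU, hCd, hCb⟩ := ih (Option ι') A' p' q'
          (by rw [Fintype.card_option]; omega) hfam
        have hfree : ∀ u, FreeEnd A' p' q' u → FreeEnd A p q u := by
          rintro u ⟨k, hk, hk'⟩
          cases k with
          | none =>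
            have hout : ∀ l, l ≠ i → l ≠ j → u ∉ A l := by
              intro l h1 h2 hl
              have := hk' (some ⟨l, h1, h2⟩) hl
              simp at this
            rcases hk with h1 | h1
            · have h1' : u = y := h1
              subst h1'
              refine ⟨i, hyend, fun l hl => ?_⟩
              by_contra hne
              by_cases h2 : l = j
              · subst h2; exact hyj hl
              · exact hout l hne h2 hl
            · have h1' : u = z := h1
              subst h1'
              refine ⟨j, hzend, fun l hl => ?_⟩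
              by_contra hne
              by_cases h2 : l = i
              · subst h2; exact hzi hl
              · exact hout l h2 hne hl
          | some k =>
            refine ⟨k.1, hk, fun l hl => ?_⟩
            by_cases h1 : l = i
            · subst h1
              have := hk' none (Or.inl hl)
              simp at this
            by_cases h2 : l = j
            · subst h2
              have := hk' none (Or.inr hl)
              simp at this
            have := hk' (some ⟨l, h1, h2⟩) hl
            have := Option.some.inj this
            rw [← this]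
        have hfree' : ∀ u, FreeEnd A p q u → FreeEnd A' p' q' u := by
          rintro u ⟨k, hk, hk'⟩
          have huk : u ∈ A k := by
            rcases hk with h1 | h1
            · rw [h1]; exact arc_left (h.ball k)
            · rw [h1]; exact arc_right (h.ball k)
          by_cases hki : k = i
          · subst hki
            have h2 : u ∈ ({y, x} : Set E) := hy ▸ hk
            have huy : u = y := by
              rcases h2 with h3 | h3
              · exact h3
              · rw [mem_singleton_iff] at h3
                rw [h3] at hk'; exact (hij (hk' j hxj).symm).elim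
            refine ⟨none, Or.inl huy, ?_⟩
            rintro (_ | m) hm
            · rfl
            · exact (m.2.1 (hk' m.1 hm)).elim
          by_cases hkj : k = j
          · subst hkj
            have h2 : u ∈ ({x, z} : Set E) := hz ▸ hk
            have huz : u = z := by
              rcases h2 with h3 | h3
              · rw [h3] at hk'; exact (hij (hk' i hxi)).elim
              · exact h3
            refine ⟨none, Or.inr huz, ?_⟩
            rintro (_ | m) hm
            · rfl
            · exact (m.2.2 (hk' m.1 hm)).elim
          · refine ⟨some ⟨k, hki, hkj⟩, hk, ?_⟩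
            rintro (_ | m) hm
            · rcases hm with hm | hm
              · exact (hki (hk' i hm).symm).elim
              · exact (hkj (hk' j hm).symm).elim
            · exact congrArg some (Subtype.ext (hk' m.1 hm))
        refine ⟨J, hJ, C, ?_, hCd, ?_⟩
        · rw [hCU, hunion, iUnion_option]; rfl
        · intro l
          rcases hCb l with ⟨h1, h1'⟩ | ⟨u, v, h1, h2, h3, h4⟩
          · exact Or.inl ⟨h1, fun x hx hf => h1' x hx (hfree' x hf)⟩
          · exact Or.inr ⟨u, v, h1, hfree u h2, hfree v h3,
              fun x hx hf => h4 x hx (hfree' x hf)⟩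

/-- **Components of a finite family of arcs.** -/
theorem ArcFam.exists_components {ι : Type w} [Finite ι] {A : ι → Set E} {p q : ι → E}
    (h : ArcFam A p q) : ∃ (J : Type w) (_ : Finite J) (C : J → Set E),
      (⋃ j, C j) = (⋃ i, A i) ∧ (∀ j j', j ≠ j' → Disjoint (C j) (C j')) ∧
      ∀ j, (ConSphere 1 (C j) ∧ ∀ x ∈ C j, ¬ FreeEnd A p q x) ∨
        ∃ u v, ConBall 1 (C j) {u, v} ∧ FreeEnd A p q u ∧ FreeEnd A p q v ∧
          ∀ x ∈ C j, FreeEnd A p q x → x = u ∨ x = v := by
  classical
  cases nonempty_fintype ι
  exact ArcFam.exists_components_aux _ ι A p q le_rfl h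

/-- **Circles.** A finite family of arcs, exactly two at each end point. -/
theorem ArcFam.exists_circles {ι : Type w} [Finite ι] {A : ι → Set E} {p q : ι → E}
    (h : ArcFam A p q) (h2 : ∀ i, (∃ j, j ≠ i ∧ p i ∈ A j) ∧ ∃ j, j ≠ i ∧ q i ∈ A j) :
    ∃ (J : Type w) (_ : Finite J) (C : J → Set E),
      (⋃ j, C j) = (⋃ i, A i) ∧ (∀ j j', j ≠ j' → Disjoint (C j) (C j')) ∧
      ∀ j, ConSphere 1 (C j) := by
  obtain ⟨J, hJ, C, h3, h4, h5⟩ := h.exists_components
  refine ⟨J, hJ, C, h3, h4, fun j => ?_⟩
  rcases h5 j with ⟨h6, -⟩ | ⟨u, v, -, ⟨i, hi, hi'⟩, -⟩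
  · exact h6
  · exfalso
    rcases hi with h7 | h7
    · obtain ⟨k, hk, hk'⟩ := (h2 i).1
      exact hk (hi' k (h7 ▸ hk'))
    · obtain ⟨k, hk, hk'⟩ := (h2 i).2
      exact hk (hi' k (h7 ▸ hk'))

end P073.TR
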