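import Vale.Agent.P073.TR.Basic
import Vale.Agent.P073.TR.Chains

/-!
# P073, block TR: compact one-dimensional conical sets

A compact set which is locally a cone with one or two directions at each of its points is a finite
disjoint union of conical circles and arcs. The corners cut it into finitely many segments.
-/

open Set Metric Topology Filter

namespace P073.TR

open P073

variable {E : Type*} [NormedAddCommGroup E] [NormedSpace ℝ E] {M : Set E}

/-- the unit directions of `M` at `x` -/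
def dirs (M : Set E) (x : E) : Set E := {u | ‖u‖ = 1 ∧ u ∈ tc M x}

theorem zero_mem_tc {x : E} (hx : x ∈ M) : (0 : E) ∈ tc M x := by
  simp only [tc, mem_ofPred_eq, smul_zero, add_zero]
  exact Eventually.of_forall fun _ => hx

theorem ne_zero_of_mem_dirs {x u : E} (hu : u ∈ dirs M x) : u ≠ 0 := by
  rintro rfl
  have := hu.1
  rw [norm_zero] at this
  exact zero_ne_one this

theorem normalize_mem_dirs {x v : E} (hv : v ∈ tc M x) (hv0 : v ≠ 0) : ‖v‖⁻¹ • v ∈ dirs M x := by
  have h := norm_pos_iff.2 hv0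
  refine ⟨?_, (tc_smul_iff (inv_pos.2 h) v).2 hv⟩
  rw [norm_smul, norm_inv, norm_norm, inv_mul_cancel₀ h.ne']

theorem norm_smul_dir {x u : E} (hu : u ∈ dirs M x) {t : ℝ} (ht : 0 ≤ t) : ‖t • u‖ = t := by
  rw [norm_smul, hu.1, mul_one, Real.norm_of_nonneg ht]

/-- near `x` along the direction `u` the set is a straight segment -/
theorem dirs_near {x : E} {r : ℝ} (H : ∀ v : E, ‖v‖ ≤ r → (x + v ∈ M ↔ v ∈ tc M x))
    (hc : ∀ y ∈ M, LocConeAt M y) (hfin : (dirs M x).Finite) {u : E} (hu : u ∈ dirs M x) {t : ℝ}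
    (ht0 : 0 < t) (htr : t < r) : x + t • u ∈ M ∧ dirs M (x + t • u) = {u, -u} := by
  have hn := norm_smul_dir hu ht0.le
  have hnr : ‖t • u‖ < r := by rwa [hn]
  have hy : x + t • u ∈ M := (H _ hnr.le).2 ((tc_smul_iff ht0 u).2 hu.2)
  have Hv := hc _ hy
  have hinv : u ∈ inv M (x + t • u) := by
    have h1 := self_mem_inv_near H hnr Hv
    have h2 := Submodule.smul_mem _ t⁻¹ h1
    rwa [smul_smul, inv_mul_cancel₀ ht0.ne', one_smul] at h2
  have h0 := zero_mem_tc hy
  have hu0 := ne_zero_of_mem_dirs hu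
  refine ⟨hy, Subset.antisymm ?_ ?_⟩
  · intro w hw
    have e1 := tc_add_eventually H hnr Hv w
    -- normalised vectors converge to `u`
    have c0 : ContinuousAt (fun s : ℝ => ‖t • u + s • w‖⁻¹ • (t • u + s • w)) 0 := by
      have hne : ‖t • u + (0:ℝ) • w‖ ≠ 0 := by
        rw [zero_smul, add_zero, hn]; exact ht0.ne'
      have ha : Continuous (fun s : ℝ => t • u + s • w) := by fun_prop
      exact (ha.norm.continuousAt.inv₀ hne).smul ha.continuousAt
    have hval : ‖t • u + (0:ℝ) • w‖⁻¹ • (t • u + (0:ℝ) • w) = u := by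
      rw [zero_smul, add_zero, hn, smul_smul, inv_mul_cancel₀ ht0.ne', one_smul]
    have hclosed : IsClosed (dirs M x \ {u}) := (hfin.subset sdiff_subset).isClosed
    have e2 : ∀ᶠ s : ℝ in 𝓝[>] 0, ‖t • u + s • w‖⁻¹ • (t • u + s • w) ∉ dirs M x \ {u} := by
      have : (dirs M x \ {u})ᶜ ∈ 𝓝 (‖t • u + (0:ℝ) • w‖⁻¹ • (t • u + (0:ℝ) • w)) := by
        rw [hval]
        exact hclosed.isOpen_compl.mem_nhds (fun h => h.2 rfl)
      exact (c0.eventually this).filter_mono nhdsWithin_le_nhds
    have e3 : ∀ᶠ s : ℝ in 𝓝[>] 0, t • u + s • w ≠ 0 := by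
      have ha : ContinuousAt (fun s : ℝ => t • u + s • w) 0 := by fun_prop
      have : t • u + (0:ℝ) • w ≠ 0 := by
        rw [zero_smul, add_zero]; exact smul_ne_zero ht0.ne' hu0
      exact (ha.eventually_ne this).filter_mono nhdsWithin_le_nhds
    obtain ⟨s, hs, ⟨a1, a2⟩, a3⟩ := eventually_unique ((e1.and e2).and e3)
    have b1 : t • u + s • w ∈ tc M x := a1.2 hw.2
    have b2 := normalize_mem_dirs b1 a3
    have b3 : ‖t • u + s • w‖⁻¹ • (t • u + s • w) = u := by
      by_contra hne
      exact a2 ⟨b2, hne⟩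
    have b4 : t • u + s • w = ‖t • u + s • w‖ • u := by
      have b4' := congrArg (fun z => ‖t • u + s • w‖ • z) b3
      simp only [smul_smul, mul_inv_cancel₀ (norm_ne_zero_iff.2 a3), one_smul] at b4'
      exact b4'
    have b5 : w = (s⁻¹ * (‖t • u + s • w‖ - t)) • u := by
      have : s • w = (‖t • u + s • w‖ - t) • u := by
        rw [sub_smul, ← b4]; abel
      rw [mul_smul, ← this, smul_smul, inv_mul_cancel₀ hs.ne', one_smul]
    have b6 : |s⁻¹ * (‖t • u + s • w‖ - t)| = 1 := by
      have := congrArg norm b5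
      rw [hw.1, norm_smul, hu.1, mul_one, Real.norm_eq_abs] at this
      exact this.symm
    rcases eq_or_eq_neg_of_abs_eq b6 with h | h
    · left; rw [b5, h, one_smul]
    · right; rw [mem_singleton_iff]; rw [b5, h, neg_one_smul]
  · rintro w (rfl | hw)
    · refine ⟨hu.1, ?_⟩
      have := (hinv 1 0).2 h0
      rwa [zero_add, one_smul] at this
    · rw [mem_singleton_iff] at hw
      subst hw
      refine ⟨by rw [norm_neg]; exact hu.1, ?_⟩
      have := (hinv (-1) 0).2 h0
      rwa [zero_add, neg_one_smul] at this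

/-- the corners: the points which are not in the interior of a straight segment -/
def corners (M : Set E) : Set E := {x | x ∈ M ∧ ¬ ∃ u, dirs M x = {u, -u}}

/-- one dimensional compact conical sets, without isolated points -/
structure OneDim (M : Set E) : Prop where
  compact : IsCompact M
  cone : ∀ x ∈ M, LocConeAt M x
  fin : ∀ x ∈ M, (dirs M x).Finite
  ne : ∀ x ∈ M, (dirs M x).Nonempty

namespace OneDim

theorem exists_radius (h : OneDim M) {x : E} (hx : x ∈ M) :
    ∃ r > (0:ℝ), ∀ u ∈ dirs M x, ∀ t : ℝ, 0 < t → t < r →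
      x + t • u ∈ M ∧ dirs M (x + t • u) = {u, -u} := by
  obtain ⟨r, hr, H⟩ := (h.cone x hx).exists_tc
  exact ⟨r, hr, fun u hu t ht0 htr => dirs_near H h.cone (h.fin x hx) hu ht0 htr⟩

theorem finite_corners (h : OneDim M) : (corners M).Finite := by
  have key : (corners M ∩ M).Finite := by
    refine h.compact.induction_on (p := fun S => (corners M ∩ S).Finite) (by simp) ?_ ?_ ?_
    · intro S T hST hT
      exact hT.subset (inter_subset_inter_right _ hST)
    · intro S T hS hT
      rw [inter_union_distrib_left]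
      exact hS.union hT
    · intro x hx
      obtain ⟨r, hr, H⟩ := (h.cone x hx).exists_tc
      refine ⟨M ∩ ball x r, inter_mem self_mem_nhdsWithin
        (mem_nhdsWithin_of_mem_nhds (ball_mem_nhds x hr)), ?_⟩
      refine (finite_singleton x).subset ?_
      rintro y ⟨hy, hyM, hyr⟩
      by_contra hne
      rw [mem_singleton_iff] at hne
      have hv0 : y - x ≠ 0 := sub_ne_zero.2 hne
      have hv : ‖y - x‖ < r := by rwa [mem_ball, dist_eq_norm] at hyr
      have h1 : y - x ∈ tc M x := (H _ hv.le).1 (by rwa [add_sub_cancel])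
      have h2 := normalize_mem_dirs h1 hv0
      have h3 := (dirs_near H h.cone (h.fin x hx) h2 (norm_pos_iff.2 hv0) hv).2
      rw [smul_smul, mul_inv_cancel₀ (norm_ne_zero_iff.2 hv0), one_smul, add_sub_cancel] at h3
      exact hy.2 ⟨_, h3⟩
  refine key.subset fun x hx => ⟨hx, hx.1⟩

/-- `T` is the distance of the next corner in the direction `u` -/
structure Next (M : Set E) (x u : E) (T : ℝ) : Prop where
  pos : 0 < T
  corner : x + T • u ∈ corners M
  mem : ∀ s, 0 < s → s < T → x + s • u ∈ M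
  dirs : ∀ s, 0 < s → s < T → dirs M (x + s • u) = {u, -u}

theorem neg_mem_tc_of_left {y u : E} {δ : ℝ} (hδ : 0 < δ)
    (h : ∀ s, 0 < s → s < δ → y - s • u ∈ M) : -u ∈ tc M y := by
  filter_upwards [Ioo_mem_nhdsGT hδ] with s hs
  rw [smul_neg, ← sub_eq_add_neg]
  exact h s hs.1 hs.2

theorem eq_pair_of_mem {y u w : E} (hd : TR.dirs M y = {w, -w}) (hu : -u ∈ TR.dirs M y) :
    TR.dirs M y = {u, -u} := by
  rw [hd] at hu ⊢
  rcases hu with h | h
  · rw [← h, neg_neg, pair_comm]
  · rw [mem_singleton_iff] at h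
    rw [neg_inj.1 h]

theorem exists_next (h : OneDim M) {x : E} (hx : x ∈ M) {u : E} (hu : u ∈ TR.dirs M x) :
    ∃ T, Next M x u T := by
  obtain ⟨r, hr, hrad⟩ := h.exists_radius hx
  set A : Set ℝ := {T | 0 < T ∧ ∀ s, 0 < s → s < T → x + s • u ∈ M ∧
    TR.dirs M (x + s • u) = {u, -u}} with hA
  have hrA : r ∈ A := ⟨hr, fun s h0 h1 => hrad u hu s h0 h1⟩
  have hbdd : BddAbove A := by
    obtain ⟨R, hR⟩ := h.compact.isBounded.subset_closedBall x
    refine ⟨2 * R, ?_⟩
    rintro T ⟨hT, hT'⟩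
    have h1 := hR (hT' (T / 2) (by linarith) (by linarith)).1
    rw [mem_closedBall, dist_eq_norm, add_sub_cancel_left, norm_smul_dir hu (by linarith)] at h1
    linarith
  set T := sSup A with hTdef
  have hT0 : 0 < T := hr.trans_le (le_csSup hbdd hrA)
  have hTA : ∀ s, 0 < s → s < T → x + s • u ∈ M ∧ TR.dirs M (x + s • u) = {u, -u} := by
    intro s h0 h1
    obtain ⟨T', hT', hsT'⟩ := exists_lt_of_lt_csSup ⟨r, hrA⟩ h1
    exact hT'.2 s h0 hsT'
  have hyM : x + T • u ∈ M := by
    have hlim : Tendsto (fun s : ℝ => x + s • u) (𝓝[<] T) (𝓝 (x + T • u)) := by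
      have : Continuous (fun s : ℝ => x + s • u) := by fun_prop
      exact (this.tendsto T).mono_left nhdsWithin_le_nhds
    refine h.compact.isClosed.mem_of_tendsto hlim ?_
    filter_upwards [Ioo_mem_nhdsLT hT0] with s hs
    exact (hTA s hs.1 hs.2).1
  refine ⟨T, hT0, ⟨hyM, ?_⟩, fun s h0 h1 => (hTA s h0 h1).1, fun s h0 h1 => (hTA s h0 h1).2⟩
  rintro ⟨w, hw⟩
  have hneg : -u ∈ TR.dirs M (x + T • u) := by
    refine ⟨by rw [norm_neg]; exact hu.1, neg_mem_tc_of_left hT0 fun s h0 h1 => ?_⟩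
    have := (hTA (T - s) (by linarith) (by linarith)).1
    rwa [sub_smul, ← add_sub_assoc] at this
  have hd := eq_pair_of_mem hw hneg
  obtain ⟨ρ, hρ, hrad'⟩ := h.exists_radius hyM
  have huy : u ∈ TR.dirs M (x + T • u) := by rw [hd]; exact Or.inl rfl
  have hmem : T + ρ ∈ A := by
    refine ⟨by linarith, fun s h0 h1 => ?_⟩
    rcases lt_trichotomy s T with h2 | h2 | h2
    · exact hTA s h0 h2
    · rw [h2]; exact ⟨hyM, hd⟩
    · have := hrad' u huy (s - T) (by linarith) (by linarith)
      rwa [add_assoc, ← add_smul, add_sub_cancel] at this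
  have := le_csSup hbdd hmem
  linarith

theorem Next.notMem {x u : E} {T : ℝ} (h : Next M x u T) {s : ℝ} (h0 : 0 < s) (h1 : s < T) :
    x + s • u ∉ corners M := fun hc => hc.2 ⟨u, h.dirs s h0 h1⟩

theorem Next.unique {x u : E} {T T' : ℝ} (h : Next M x u T) (h' : Next M x u T') : T = T' := by
  rcases lt_trichotomy T T' with h1 | h1 | h1
  · exact (h'.notMem h.pos h1 h.corner).elim
  · exact h1
  · exact (h.notMem h'.pos h1 h'.corner).elim

/-- the same segment from the other end -/
theorem Next.reverse {x u : E} {T : ℝ} (h : Next M x u T) (hx : x ∈ corners M)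
    (hu : ‖u‖ = 1) : Next M (x + T • u) (-u) T ∧ -u ∈ TR.dirs M (x + T • u) := by
  have e : ∀ s : ℝ, x + T • u + s • (-u) = x + (T - s) • u := by
    intro s; rw [smul_neg, sub_smul]; abel
  refine ⟨⟨h.pos, ?_, ?_, ?_⟩, ?_, ?_⟩
  · rw [e, sub_self, zero_smul, add_zero]; exact hx
  · intro s h0 h1
    rw [e]; exact h.mem _ (by linarith) (by linarith)
  · intro s h0 h1
    rw [e, h.dirs _ (by linarith) (by linarith), neg_neg, pair_comm]
  · rw [norm_neg]; exact hu
  · refine neg_mem_tc_of_left h.pos fun s h0 h1 => ?_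
    have := h.mem (T - s) (by linarith) (by linarith)
    rwa [sub_smul, ← add_sub_assoc] at this

/-- continuing from an inner point -/
theorem Next.shift {x u : E} {T : ℝ} (h : Next M x u T) {s : ℝ} (h0 : 0 < s) (h1 : s < T) :
    Next M (x + s • u) u (T - s) := by
  have e : ∀ t : ℝ, x + s • u + t • u = x + (s + t) • u := by
    intro t; rw [add_smul, add_assoc]
  refine ⟨by linarith, ?_, ?_, ?_⟩
  · rw [e, add_sub_cancel]; exact h.corner
  · intro t h2 h3; rw [e]; exact h.mem _ (by linarith) (by linarith)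
  · intro t h2 h3; rw [e]; exact h.dirs _ (by linarith) (by linarith)

/-- going back from an inner point -/
theorem Next.shift_neg {x u : E} {T : ℝ} (h : Next M x u T) (hx : x ∈ corners M)
    {s : ℝ} (h0 : 0 < s) (h1 : s < T) : Next M (x + s • u) (-u) s := by
  have e : ∀ t : ℝ, x + s • u + t • (-u) = x + (s - t) • u := by
    intro t; rw [smul_neg, sub_smul]; abel
  refine ⟨h0, ?_, ?_, ?_⟩
  · rw [e, sub_self, zero_smul, add_zero]; exact hx
  · intro t h2 h3; rw [e]; exact h.mem _ (by linarith) (by linarith)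
  · intro t h2 h3
    rw [e, h.dirs _ (by linarith) (by linarith), neg_neg, pair_comm]

/-- the edges: segments between consecutive corners -/
def IsEdge (M S : Set E) : Prop :=
  ∃ x ∈ corners M, ∃ u ∈ TR.dirs M x, ∃ T, Next M x u T ∧ S = segment ℝ x (x + T • u)

theorem finite_edges (h : OneDim M) : {S | IsEdge M S}.Finite := by
  refine ((h.finite_corners.prod h.finite_corners).image fun z : E × E =>
    segment ℝ z.1 z.2).subset ?_
  rintro S ⟨x, hx, u, hu, T, hT, rfl⟩
  exact ⟨(x, x + T • u), ⟨hx, hT.corner⟩, rfl⟩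

theorem mem_segment_ray {x u : E} {T : ℝ} (hT : 0 < T) {w : E} :
    w ∈ segment ℝ x (x + T • u) ↔ ∃ s, 0 ≤ s ∧ s ≤ T ∧ w = x + s • u := by
  rw [segment_eq_image']
  constructor
  · rintro ⟨θ, hθ, rfl⟩
    refine ⟨θ * T, mul_nonneg hθ.1 hT.le, ?_, ?_⟩
    · nlinarith [hθ.2]
    · simp only [add_sub_cancel_left]
      rw [smul_smul]
  · rintro ⟨s, h0, h1, rfl⟩
    refine ⟨s / T, ⟨div_nonneg h0 hT.le, (div_le_one hT).2 h1⟩, ?_⟩
    simp only [add_sub_cancel_left]
    rw [smul_smul, div_mul_cancel₀ _ hT.ne']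

theorem IsEdge.subset {S : Set E} (h : IsEdge M S) : S ⊆ M := by
  obtain ⟨x, hx, u, hu, T, hT, rfl⟩ := h
  intro w hw
  obtain ⟨s, h0, h1, rfl⟩ := (mem_segment_ray hT.pos).1 hw
  rcases eq_or_lt_of_le h0 with h2 | h2
  · rw [← h2, zero_smul, add_zero]; exact hx.1
  rcases eq_or_lt_of_le h1 with h3 | h3
  · rw [h3]; exact hT.corner.1
  exact hT.mem s h2 h3

/-- an edge seen from one of its corners -/
theorem IsEdge.at_corner {S : Set E} (h : IsEdge M S) {w : E} (hw : w ∈ S)
    (hwc : w ∈ corners M) : ∃ u ∈ TR.dirs M w, ∃ T, Next M w u T ∧ S = segment ℝ w (w + T • u) := by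
  obtain ⟨x, hx, u, hu, T, hT, rfl⟩ := h
  obtain ⟨s, h0, h1, rfl⟩ := (mem_segment_ray hT.pos).1 hw
  rcases eq_or_lt_of_le h0 with h2 | h2
  · rw [← h2, zero_smul, add_zero]; exact ⟨u, hu, T, hT, rfl⟩
  rcases eq_or_lt_of_le h1 with h3 | h3
  · subst h3
    obtain ⟨h4, h5⟩ := hT.reverse hx hu.1
    refine ⟨-u, h5, s, h4, ?_⟩
    rw [smul_neg, add_neg_cancel_right, segment_symm]
  · exact (hT.notMem h2 h3 hwc).elim

/-- an edge seen from an inner point -/
theorem IsEdge.at_inner {S : Set E} (h : IsEdge M S) {w : E} (hw : w ∈ S)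
    (hwc : w ∉ corners M) : ∃ u, ‖u‖ = 1 ∧ TR.dirs M w = {u, -u} ∧ ∃ T T', Next M w u T ∧
      Next M w (-u) T' ∧ S = segment ℝ (w + T' • (-u)) (w + T • u) := by
  obtain ⟨x, hx, u, hu, T, hT, rfl⟩ := h
  obtain ⟨s, h0, h1, rfl⟩ := (mem_segment_ray hT.pos).1 hw
  rcases eq_or_lt_of_le h0 with h2 | h2
  · rw [← h2, zero_smul, add_zero] at hwc; exact (hwc hx).elim
  rcases eq_or_lt_of_le h1 with h3 | h3
  · rw [h3] at hwc; exact (hwc hT.corner).elim
  · refine ⟨u, hu.1, hT.dirs s h2 h3, T - s, s, hT.shift h2 h3, hT.shift_neg hx h2 h3, ?_⟩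
    rw [smul_neg, add_neg_cancel_right, add_assoc, ← add_smul, add_sub_cancel]

theorem edge_eq_of_inner {S S' : Set E} (h : IsEdge M S) (h' : IsEdge M S') {w : E} (hw : w ∈ S)
    (hw' : w ∈ S') (hwc : w ∉ corners M) : S = S' := by
  obtain ⟨u, hu, hd, T, T', h1, h2, rfl⟩ := h.at_inner hw hwc
  obtain ⟨v, hv, hd', R, R', h3, h4, rfl⟩ := h'.at_inner hw' hwc
  rw [hd] at hd'
  have hvu : v = u ∨ v = -u := by
    have : v ∈ ({u, -u} : Set E) := hd' ▸ Or.inl rfl
    exact this
  rcases hvu with rfl | rfl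
  · rw [h1.unique h3, h2.unique h4]
  · rw [neg_neg] at h4 ⊢
    rw [h1.unique h4, h2.unique h3, segment_symm]

theorem edge_eq_of_dir {x u : E} {T T' : ℝ} (h : Next M x u T) (h' : Next M x u T') :
    segment ℝ x (x + T • u) = segment ℝ x (x + T' • u) := by
  rw [h.unique h']

/-- the segment is a conical arc -/
theorem conBall_segment {x y : E} (hxy : x ≠ y) : ConBall 1 (segment ℝ x y) {x, y} := by
  have hX := conicalSet_Icc_real 0 1
  set f : ℝ → E := fun t => x + t • (y - x) with hf
  have hfc : Continuous f := by fun_prop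
  have hcon : ConicalOn f (Icc (0:ℝ) 1) :=
    (conicalOn_const x hX).add (conicalOn_linear ((LinearMap.id : ℝ →ₗ[ℝ] ℝ).smulRight (y - x)) hX)
  have hinj : InjOn f (Icc (0:ℝ) 1) := by
    intro s _ t _ hst
    have h1 : s • (y - x) = t • (y - x) := add_left_cancel hst
    exact smul_left_injective ℝ (sub_ne_zero.2 (Ne.symm hxy)) h1
  have himg : f '' Icc (0:ℝ) 1 = segment ℝ x y := (segment_eq_image' ℝ x y).symm
  have h1 := (conBall_Icc (s := 0) (t := 1) zero_lt_one).image
    (ConHomeo.ofCompact isCompact_Icc f hfc.continuousOn hinj hcon himg) (le_refl _)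
  rw [ConHomeo.ofCompact_toFun, image_pair, himg] at h1
  have e0 : f 0 = x := by simp [hf]
  have e1 : f 1 = y := by simp [hf]
  rwa [e0, e1] at h1

theorem Next.ne {x u : E} {T : ℝ} (h : Next M x u T) (hu : u ∈ TR.dirs M x) : x ≠ x + T • u := by
  intro he
  have : T • u = 0 := by
    have := he.symm
    rwa [add_eq_left] at this
  exact smul_ne_zero h.pos.ne' (ne_zero_of_mem_dirs hu) this

theorem corner_end {x u : E} {T : ℝ} (h : Next M x u T) {w : E}
    (hw : w ∈ segment ℝ x (x + T • u)) (hwc : w ∈ corners M) : w = x ∨ w = x + T • u := by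
  obtain ⟨s, h0, h1, rfl⟩ := (mem_segment_ray h.pos).1 hw
  rcases eq_or_lt_of_le h0 with h2 | h2
  · left; rw [← h2, zero_smul, add_zero]
  rcases eq_or_lt_of_le h1 with h3 | h3
  · right; rw [h3]
  · exact (h.notMem h2 h3 hwc).elim

theorem cover (h : OneDim M) {w : E} (hw : w ∈ M) : ∃ S, IsEdge M S ∧ w ∈ S := by
  by_cases hwc : w ∈ corners M
  · obtain ⟨u, hu⟩ := h.ne w hw
    obtain ⟨T, hT⟩ := h.exists_next hw hu
    exact ⟨_, ⟨w, hwc, u, hu, T, hT, rfl⟩, left_mem_segment _ _ _⟩
  · have : ∃ u, TR.dirs M w = {u, -u} := by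
      by_contra hne
      exact hwc ⟨hw, hne⟩
    obtain ⟨u, hd⟩ := this
    have hu : u ∈ TR.dirs M w := by rw [hd]; exact Or.inl rfl
    have hu' : -u ∈ TR.dirs M w := by rw [hd]; exact Or.inr rfl
    obtain ⟨T, hT⟩ := h.exists_next hw hu
    obtain ⟨T', hT'⟩ := h.exists_next hw hu'
    -- start at the corner `w - T' u`
    have hx : w + T' • (-u) ∈ corners M := hT'.corner
    have e : ∀ s : ℝ, w + T' • (-u) + s • u = w + (s - T') • u := by
      intro s; rw [smul_neg, sub_smul]; abel
    have hN : Next M (w + T' • (-u)) u (T' + T) := by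
      refine ⟨by linarith [hT.pos, hT'.pos], ?_, ?_, ?_⟩
      · rw [e, add_sub_cancel_left]; exact hT.corner
      · intro s h0 h1
        rw [e]
        rcases lt_trichotomy s T' with h2 | h2 | h2
        · have := hT'.mem (T' - s) (by linarith) (by linarith)
          rw [smul_neg, ← neg_smul, neg_sub] at this
          exact this
        · rw [h2, sub_self, zero_smul, add_zero]; exact hw
        · exact hT.mem (s - T') (by linarith) (by linarith)
      · intro s h0 h1
        rw [e]
        rcases lt_trichotomy s T' with h2 | h2 | h2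
        · have := hT'.dirs (T' - s) (by linarith) (by linarith)
          rw [smul_neg, ← neg_smul, neg_sub, neg_neg, pair_comm] at this
          exact this
        · rw [h2, sub_self, zero_smul, add_zero]; exact hd
        · exact hT.dirs (s - T') (by linarith) (by linarith)
    have hux : u ∈ TR.dirs M (w + T' • (-u)) := by
      refine ⟨hu.1, ?_⟩
      have : ∀ s, 0 < s → s < T' → (w + T' • (-u)) - s • (-u) ∈ M := by
        intro s h0 h1
        have := hT'.mem (T' - s) (by linarith) (by linarith)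
        rwa [sub_smul, ← add_sub_assoc] at this
      have := neg_mem_tc_of_left hT'.pos this
      rwa [neg_neg] at this
    refine ⟨_, ⟨_, hx, u, hux, _, hN, rfl⟩, ?_⟩
    rw [mem_segment_ray hN.pos]
    refine ⟨T', hT'.pos.le, by linarith [hT.pos], ?_⟩
    rw [e, sub_self, zero_smul, add_zero]

end OneDim

end P073.TR
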