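import Vale.Agent.P073.SCH.Arc
import Vale.Agent.P073.TR.OneDim

/-!
# P073, block TR: directions of conical sets under conical homeomorphisms, arcs and circles
-/

open Set Metric Topology Filter

namespace P073.TR.DM

variable {E F G : Type*} [NormedAddCommGroup E] [NormedSpace ℝ E]
  [NormedAddCommGroup F] [NormedSpace ℝ F] [NormedAddCommGroup G] [NormedSpace ℝ G]

theorem mem_dirs {M : Set E} {x u : E} :
    u ∈ dirs M x ↔ ‖u‖ = 1 ∧ ∀ᶠ t in 𝓝[>] (0:ℝ), x + t • u ∈ M := Iff.rfl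

theorem norm_of_mem_dirs {M : Set E} {x u : E} (h : u ∈ dirs M x) : ‖u‖ = 1 := h.1

theorem ev_of_mem_dirs {M : Set E} {x u : E} (h : u ∈ dirs M x) :
    ∀ᶠ t in 𝓝[>] (0:ℝ), x + t • u ∈ M := h.2

theorem dirs_mono {M N : Set E} (h : M ⊆ N) (x : E) : dirs M x ⊆ dirs N x :=
  fun _ hu => ⟨hu.1, (ev_of_mem_dirs hu).mono fun _ ht => h ht⟩

theorem tendsto_add_smul (x u : E) : Tendsto (fun t : ℝ => x + t • u) (𝓝[>] 0) (𝓝 x) := by
  have h : Continuous (fun t : ℝ => x + t • u) := by fun_prop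
  have := h.tendsto 0
  rw [zero_smul, add_zero] at this
  exact this.mono_left nhdsWithin_le_nhds

theorem dirs_congr {M N : Set E} {x : E} (h : ∀ᶠ y in 𝓝 x, (y ∈ M ↔ y ∈ N)) :
    dirs M x = dirs N x := by
  suffices h2 : ∀ {M N : Set E}, (∀ᶠ y in 𝓝 x, (y ∈ M ↔ y ∈ N)) → dirs M x ⊆ dirs N x from
    Subset.antisymm (h2 h) (h2 (h.mono fun _ hy => hy.symm))
  intro M N h u hu
  refine ⟨hu.1, ?_⟩
  filter_upwards [ev_of_mem_dirs hu, (tendsto_add_smul x u).eventually h] with t h1 h2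
  exact h2.1 h1

theorem dirs_union {M N : Set E} {x : E} (hM : ConicalSetAt M x) :
    dirs (M ∪ N) x = dirs M x ∪ dirs N x := by
  apply Subset.antisymm _ (union_subset (dirs_mono subset_union_left x)
    (dirs_mono subset_union_right x))
  intro u hu
  obtain ⟨r, hr, H⟩ := hM
  by_cases h : ∃ t ∈ Ioc 0 r, x + t • u ∈ M
  · obtain ⟨t, ht, htM⟩ := h
    refine Or.inl ⟨hu.1, ?_⟩
    filter_upwards [Ioc_mem_nhdsGT ht.1] with s hs
    have := H (t • u) (by rw [norm_smul, hu.1, mul_one, Real.norm_of_nonneg ht.1.le]; exact ht.2)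
      htM (s / t) ⟨(div_pos hs.1 ht.1).le, (div_le_one ht.1).2 hs.2⟩
    rwa [smul_smul, div_mul_cancel₀ _ ht.1.ne'] at this
  · right
    refine ⟨hu.1, ?_⟩
    filter_upwards [ev_of_mem_dirs hu, Ioc_mem_nhdsGT hr] with t h1 h2
    rcases h1 with h1 | h1
    · exact absurd ⟨t, h2, h1⟩ h
    · exact h1

theorem dirs_disjoint {A B : Set E} {x : E} (h : ∀ᶠ y in 𝓝 x, y ∈ A → y ∈ B → y = x) :
    Disjoint (dirs A x) (dirs B x) := by
  rw [Set.disjoint_left]
  intro u hu hv
  obtain ⟨t, ht, h1, h2, h3⟩ := eventually_unique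
    ((ev_of_mem_dirs hu).and ((ev_of_mem_dirs hv).and ((tendsto_add_smul x u).eventually h)))
  have h4 : t • u = 0 := by simpa using h3 h1 h2
  rcases smul_eq_zero.1 h4 with h5 | h5
  · exact ht.ne' h5
  · have h6 := norm_of_mem_dirs hu
    rw [h5, norm_zero] at h6
    exact zero_ne_one h6

omit [NormedSpace ℝ E] in
theorem eq_of_inter_finite {A B : Set E} (h : (A ∩ B).Finite) (x : E) :
    ∀ᶠ y in 𝓝 x, y ∈ A → y ∈ B → y = x := by
  have h1 : ((A ∩ B) \ {x})ᶜ ∈ 𝓝 x := by
    apply IsOpen.mem_nhds (h.subset sdiff_subset).isClosed.isOpen_compl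
    simp
  filter_upwards [h1] with y hy hA hB
  by_contra hne
  exact hy ⟨⟨hA, hB⟩, hne⟩

/-- unit vectors with proportional directions are equal -/
theorem eq_of_smul_eq {u v : E} (hu : ‖u‖ = 1) (hv : ‖v‖ = 1) {s t : ℝ} (hs : 0 < s) (ht : 0 < t)
    (h : s • u = t • v) : u = v ∧ s = t := by
  have h1 : s = t := by
    have := congrArg norm h
    rwa [norm_smul, norm_smul, hu, hv, mul_one, mul_one, Real.norm_of_nonneg hs.le,
      Real.norm_of_nonneg ht.le] at this
  subst h1
  exact ⟨smul_right_injective E hs.ne' h, rfl⟩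

theorem encard_dirs_le {X : Set E} {Y : Set F} (φ : ConHomeo X Y) {x : E} (hx : x ∈ X) :
    (dirs X x).encard ≤ (dirs Y (φ.toFun x)).encard := by
  obtain ⟨r, hr, H⟩ := φ.conical x hx
  have h1 : ∀ u ∈ dirs X x, ∃ t : ℝ, t > 0 ∧ ‖t • u‖ ≤ r ∧ x + t • u ∈ X := by
    intro u hu
    obtain ⟨t, ht, h1, h2⟩ := eventually_unique ((ev_of_mem_dirs hu).and (Ioc_mem_nhdsGT hr))
    exact ⟨t, ht, by rw [norm_smul, hu.1, mul_one, Real.norm_of_nonneg h2.1.le]; exact h2.2, h1⟩
  choose! τ hτ hτr hτX using h1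
  set w : E → F := fun u => φ.toFun (x + τ u • u) - φ.toFun x with hw
  have key : ∀ u ∈ dirs X x, ∀ t ∈ Icc (0:ℝ) 1, x + (t * τ u) • u ∈ X ∧
      φ.toFun (x + (t * τ u) • u) = φ.toFun x + t • w u := by
    intro u hu t ht
    have := H (τ u • u) (hτr u hu) (hτX u hu) t ht
    rw [smul_smul] at this
    exact this
  have hw0 : ∀ u ∈ dirs X x, w u ≠ 0 := by
    intro u hu h0
    have h2 : φ.toFun (x + τ u • u) = φ.toFun x := sub_eq_zero.1 h0
    have h3 := φ.injOn (hτX u hu) hx h2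
    have h4 : τ u • u = 0 := by simpa using h3
    rcases smul_eq_zero.1 h4 with h5 | h5
    · exact (hτ u hu).ne' h5
    · have := hu.1
      rw [h5, norm_zero] at this
      exact zero_ne_one this
  have hwp : ∀ u ∈ dirs X x, 0 < ‖w u‖ := fun u hu => norm_pos_iff.2 (hw0 u hu)
  set d : E → F := fun u => ‖w u‖⁻¹ • w u with hd
  have hdw : ∀ u ∈ dirs X x, w u = ‖w u‖ • d u := by
    intro u hu
    rw [hd]; simp only
    rw [smul_smul, mul_inv_cancel₀ (hwp u hu).ne', one_smul]
  have hd1 : ∀ u ∈ dirs X x, ‖d u‖ = 1 := by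
    intro u hu
    rw [hd]; simp only
    rw [norm_smul, norm_inv, norm_norm, inv_mul_cancel₀ (hwp u hu).ne']
  refine Set.encard_le_encard_of_injOn (f := d) ?_ ?_
  · intro u hu
    refine ⟨hd1 u hu, ?_⟩
    filter_upwards [Ioc_mem_nhdsGT (hwp u hu)] with t ht
    have h2 : t / ‖w u‖ ∈ Icc (0:ℝ) 1 := ⟨(div_pos ht.1 (hwp u hu)).le,
      (div_le_one (hwp u hu)).2 ht.2⟩
    have h3 := key u hu _ h2
    have h4 : t • d u = (t / ‖w u‖) • w u := by
      rw [hd]; simp only
      rw [smul_smul, div_eq_mul_inv]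
    rw [h4, ← h3.2]
    exact φ.mapsTo h3.1
  · intro u hu v hv huv
    -- choose `s, s'` in `(0,1]` with `s w u = s' w v`
    have huv' : d u = d v := huv
    set m : ℝ := min ‖w u‖ ‖w v‖ with hm
    have hm0 : 0 < m := lt_min (hwp u hu) (hwp v hv)
    have a1 : m / ‖w u‖ ∈ Icc (0:ℝ) 1 := ⟨(div_pos hm0 (hwp u hu)).le,
      (div_le_one (hwp u hu)).2 (min_le_left _ _)⟩
    have a2 : m / ‖w v‖ ∈ Icc (0:ℝ) 1 := ⟨(div_pos hm0 (hwp v hv)).le,
      (div_le_one (hwp v hv)).2 (min_le_right _ _)⟩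
    obtain ⟨b1, b2⟩ := key u hu _ a1
    obtain ⟨c1, c2⟩ := key v hv _ a2
    have e1 : (m / ‖w u‖) • w u = m • d u := by
      rw [hd]; simp only
      rw [smul_smul, div_eq_mul_inv]
    have e2 : (m / ‖w v‖) • w v = m • d v := by
      rw [hd]; simp only
      rw [smul_smul, div_eq_mul_inv]
    have e3 : φ.toFun (x + (m / ‖w u‖ * τ u) • u) = φ.toFun (x + (m / ‖w v‖ * τ v) • v) := by
      rw [b2, c2, e1, e2, huv']
    have e4 := φ.injOn b1 c1 e3
    have e5 := add_left_cancel e4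
    exact (eq_of_smul_eq hu.1 hv.1 (mul_pos (div_pos hm0 (hwp u hu)) (hτ u hu))
      (mul_pos (div_pos hm0 (hwp v hv)) (hτ v hv)) e5).1

theorem encard_dirs {X : Set E} {Y : Set F} (φ : ConHomeo X Y) {x : E} (hx : x ∈ X) :
    (dirs Y (φ.toFun x)).encard = (dirs X x).encard := by
  apply le_antisymm _ (encard_dirs_le φ hx)
  have := encard_dirs_le φ.symm (φ.mapsTo hx)
  rw [ConHomeo.symm_toFun, φ.left_inv hx] at this
  exact this

/-! ### Directions of the unit interval -/

theorem norm_eq_one_real {u : ℝ} (h : ‖u‖ = 1) : u = 1 ∨ u = -1 :=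
  eq_or_eq_neg_of_abs_eq h

theorem dirs_Icc_left {a b : ℝ} (hab : a < b) : dirs (Icc a b) a = {1} := by
  apply Subset.antisymm
  · rintro u ⟨h1, h2⟩
    rcases norm_eq_one_real h1 with h | h
    · exact h
    · exfalso
      obtain ⟨t, ht, h3⟩ := eventually_unique h2
      rw [h] at h3
      have := h3.1
      simp only [smul_eq_mul] at this
      linarith
  · rintro u rfl
    refine ⟨norm_one, ?_⟩
    filter_upwards [Ioc_mem_nhdsGT (sub_pos.2 hab)] with t ht
    simp only [smul_eq_mul, mul_one]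
    exact ⟨by linarith [ht.1], by linarith [ht.2]⟩

theorem dirs_Icc_right {a b : ℝ} (hab : a < b) : dirs (Icc a b) b = {-1} := by
  apply Subset.antisymm
  · rintro u ⟨h1, h2⟩
    rcases norm_eq_one_real h1 with h | h
    · exfalso
      obtain ⟨t, ht, h3⟩ := eventually_unique h2
      rw [h] at h3
      have := h3.2
      simp only [smul_eq_mul] at this
      linarith
    · exact h
  · rintro u rfl
    refine ⟨by simp, ?_⟩
    filter_upwards [Ioc_mem_nhdsGT (sub_pos.2 hab)] with t ht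
    simp only [smul_eq_mul, mul_neg, mul_one]
    exact ⟨by linarith [ht.2], by linarith [ht.1]⟩

theorem dirs_Icc_mid {a b x : ℝ} (hx : x ∈ Ioo a b) : dirs (Icc a b) x = {1, -1} := by
  apply Subset.antisymm
  · rintro u ⟨h1, -⟩
    rcases norm_eq_one_real h1 with h | h
    · left; exact h
    · right; exact h
  · intro u hu
    refine ⟨by rcases hu with rfl | rfl <;> simp, ?_⟩
    have := (tendsto_add_smul x u).eventually (Ioo_mem_nhds hx.1 hx.2)
    exact this.mono fun t ht => Ioo_subset_Icc_self ht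

/-! ### Arcs and circles -/

theorem _root_.P073.IsArc.encard_left {A : Set E} {p q : E} (h : IsArc A p q) :
    (dirs A p).encard = 1 := by
  obtain ⟨φ, h0, h1⟩ := h
  rw [← h0, encard_dirs φ ⟨le_refl _, zero_le_one⟩, dirs_Icc_left zero_lt_one, encard_singleton]

theorem _root_.P073.IsArc.encard_right {A : Set E} {p q : E} (h : IsArc A p q) :
    (dirs A q).encard = 1 := h.symm.encard_left

theorem _root_.P073.IsArc.encard_mid {A : Set E} {p q x : E} (h : IsArc A p q) (hx : x ∈ A)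
    (hp : x ≠ p) (hq : x ≠ q) : (dirs A x).encard = 2 := by
  obtain ⟨φ, h0, h1⟩ := h
  rw [← φ.image_eq] at hx
  obtain ⟨t, ht, rfl⟩ := hx
  have ht0 : t ≠ 0 := by rintro rfl; exact hp h0
  have ht1 : t ≠ 1 := by rintro rfl; exact hq h1
  rw [encard_dirs φ ht, dirs_Icc_mid ⟨lt_of_le_of_ne ht.1 (Ne.symm ht0), lt_of_le_of_ne ht.2 ht1⟩]
  exact encard_pair (by norm_num)

/-- the points of `A` with at most one direction -/
def bdc (A : Set E) : Set E := {x | x ∈ A ∧ (dirs A x).encard ≤ 1}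

theorem _root_.P073.IsArc.bdc_eq {A : Set E} {p q : E} (h : IsArc A p q) : bdc A = {p, q} := by
  ext x
  constructor
  · rintro ⟨hx, h1⟩
    by_contra hne
    simp only [mem_insert_iff, mem_singleton_iff, not_or] at hne
    rw [h.encard_mid hx hne.1 hne.2] at h1
    exact absurd h1 (by norm_num)
  · rintro (rfl | hx)
    · exact ⟨h.left_mem, h.encard_left.le⟩
    · rw [mem_singleton_iff.1 hx]; exact ⟨h.right_mem, h.encard_right.le⟩

theorem encard_dirs_union {A B : Set E} {x : E} (hA : ConicalSetAt A x) (h : (A ∩ B).Finite) :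
    (dirs (A ∪ B) x).encard = (dirs A x).encard + (dirs B x).encard := by
  rw [dirs_union hA, encard_union_eq (dirs_disjoint (eq_of_inter_finite h x))]

/-- the directions at a point of one closed set only -/
theorem dirs_union_of_notMem {A B : Set E} {x : E} (hB : IsClosed B) (hx : x ∉ B) :
    dirs (A ∪ B) x = dirs A x := by
  apply dirs_congr
  filter_upwards [hB.isOpen_compl.mem_nhds hx] with y hy
  exact ⟨fun h => h.resolve_right hy, fun h => Or.inl h⟩

theorem _root_.P073.IsCircle.isCompact {C : Set E} (h : IsCircle C) : IsCompact C := by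
  obtain ⟨φ⟩ := h
  exact φ.isCompact_right (isCompact_sphere _ _)

theorem _root_.P073.IsCircle.encard_dirs {C : Set E} (h : IsCircle C) {x : E} (hx : x ∈ C) :
    (dirs C x).encard = 2 := by
  obtain ⟨A, B, p, q, hA, hB, hAB, rfl⟩ := h.exists_arcs
  have hfin : (A ∩ B).Finite := (toFinite {p, q}).subset hAB
  have key : ∀ {A B : Set E}, IsArc A p q → IsArc B p q → A ∩ B ⊆ {p, q} → (A ∩ B).Finite →
      x ∈ A → (dirs (A ∪ B) x).encard = 2 := by
    intro A B hA hB hAB hfin hx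
    by_cases h1 : x = p
    · rw [encard_dirs_union (hA.conicalSet x hx) hfin, h1, hA.encard_left, hB.encard_left]
      norm_num
    by_cases h2 : x = q
    · rw [encard_dirs_union (hA.conicalSet x hx) hfin, h2, hA.encard_right, hB.encard_right]
      norm_num
    · rw [dirs_union_of_notMem hB.isClosed, hA.encard_mid hx h1 h2]
      intro hxB
      rcases hAB ⟨hx, hxB⟩ with h | h
      · exact h1 h
      · exact h2 h
  rcases hx with hx | hx
  · exact key hA hB hAB hfin hx
  · rw [union_comm]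
    rw [inter_comm] at hAB hfin
    exact key hB hA hAB hfin hx

theorem _root_.P073.IsCircle.bdc_eq {C : Set E} (h : IsCircle C) : bdc C = ∅ := by
  rw [eq_empty_iff_forall_notMem]
  rintro x ⟨hx, h1⟩
  rw [h.encard_dirs hx] at h1
  exact absurd h1 (by norm_num)

end P073.TR.DM
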