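import Vale.Agent.P073.TR.OneDim

/-!
# P073, block TR: classification of compact one-dimensional conical sets
-/

open Set Metric Topology Filter

namespace P073.TR

open P073

universe w

variable {E : Type w} [NormedAddCommGroup E] [NormedSpace ℝ E] {M : Set E}

namespace OneDim

theorem segment_dir_eq {x u u' : E} {T T' : ℝ} (hT : 0 < T) (hT' : 0 < T') (hu : ‖u‖ = 1)
    (hu' : ‖u'‖ = 1) (h : segment ℝ x (x + T • u) = segment ℝ x (x + T' • u')) : u = u' := by
  have h1 : x + T • u ∈ segment ℝ x (x + T' • u') := h ▸ right_mem_segment _ _ _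
  obtain ⟨s, h0, -, h2⟩ := (mem_segment_ray hT').1 h1
  have h3 : T • u = s • u' := add_left_cancel h2
  have h4 : T = s := by
    have := congrArg norm h3
    rwa [norm_smul, norm_smul, hu, hu', mul_one, mul_one, Real.norm_of_nonneg hT.le,
      Real.norm_of_nonneg h0] at this
  rw [← h4] at h3
  exact smul_right_injective E hT.ne' h3

theorem exists_two (h : OneDim M) {x : E} (hx : x ∈ corners M) (h2 : (TR.dirs M x).ncard = 2)
    (S : Set E) : ∃ S', IsEdge M S' ∧ S' ≠ S ∧ x ∈ S' := by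
  obtain ⟨u, u', hne, hd⟩ := ncard_eq_two.1 h2
  have hu : u ∈ TR.dirs M x := by rw [hd]; exact Or.inl rfl
  have hu' : u' ∈ TR.dirs M x := by rw [hd]; exact Or.inr rfl
  obtain ⟨T, hT⟩ := h.exists_next hx.1 hu
  obtain ⟨T', hT'⟩ := h.exists_next hx.1 hu'
  by_cases he : segment ℝ x (x + T • u) = S
  · refine ⟨segment ℝ x (x + T' • u'), ⟨x, hx, u', hu', T', hT', rfl⟩, fun he' => ?_,
      left_mem_segment _ _ _⟩
    exact hne (segment_dir_eq hT.pos hT'.pos hu.1 hu'.1 (he.trans he'.symm))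
  · exact ⟨_, ⟨x, hx, u, hu, T, hT, rfl⟩, he, left_mem_segment _ _ _⟩

theorem edge_unique_of_one {x : E} (hx : x ∈ corners M) (h1 : (TR.dirs M x).ncard = 1)
    {S S' : Set E} (hS : IsEdge M S) (hS' : IsEdge M S') (hxS : x ∈ S) (hxS' : x ∈ S') :
    S = S' := by
  obtain ⟨u, hu, T, hT, rfl⟩ := hS.at_corner hxS hx
  obtain ⟨u', hu', T', hT', rfl⟩ := hS'.at_corner hxS' hx
  obtain ⟨a, ha⟩ := ncard_eq_one.1 h1
  have e1 : u = a := by rw [ha] at hu; exact hu
  have e2 : u' = a := by rw [ha] at hu'; exact hu'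
  subst e1; subst e2
  rw [hT.unique hT']

end OneDim

/-- the hypotheses of the classification theorem -/
structure Curve (M : Set E) : Prop where
  compact : IsCompact M
  cone : ∀ x ∈ M, LocConeAt M x
  card : ∀ x ∈ M, (dirs M x).ncard = 1 ∨ (dirs M x).ncard = 2

theorem Curve.oneDim (h : Curve M) : OneDim M := by
  refine ⟨h.compact, h.cone, fun x hx => ?_, fun x hx => ?_⟩
  · rcases h.card x hx with h1 | h1
    · exact finite_of_ncard_ne_zero (by rw [h1]; exact one_ne_zero)
    · exact finite_of_ncard_ne_zero (by rw [h1]; exact two_ne_zero)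
  · rcases h.card x hx with h1 | h1
    · exact nonempty_of_ncard_ne_zero (by rw [h1]; exact one_ne_zero)
    · exact nonempty_of_ncard_ne_zero (by rw [h1]; exact two_ne_zero)

/-- **Classification of compact one-dimensional conical sets.** A compact set which is locally a
cone with one or two directions at each point is a finite disjoint union of conical circles and
arcs; the end points of the arcs are the points with one direction. -/
theorem Curve.exists_components (h : Curve M) : ∃ (J : Type w) (_ : Finite J) (C : J → Set E),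
    (⋃ j, C j) = M ∧ (∀ j j', j ≠ j' → Disjoint (C j) (C j')) ∧
    ∀ j, (ConSphere 1 (C j) ∧ ∀ x ∈ C j, (dirs M x).ncard = 2) ∨
      ∃ u v, ConBall 1 (C j) {u, v} ∧ (dirs M u).ncard = 1 ∧ (dirs M v).ncard = 1 ∧
        ∀ x ∈ C j, (dirs M x).ncard = 1 → x = u ∨ x = v := by
  classical
  have hO := h.oneDim
  let ι := {S : Set E // OneDim.IsEdge M S}
  have hfin : Finite ι := hO.finite_edges
  have hends : ∀ i : ι, ∃ x y : E, x ∈ corners M ∧ y ∈ corners M ∧ x ≠ y ∧
      i.1 = segment ℝ x y ∧ ∀ w ∈ i.1, w ∈ corners M → w = x ∨ w = y := by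
    rintro ⟨S, x, hx, u, hu, T, hT, rfl⟩
    exact ⟨x, x + T • u, hx, hT.corner, hT.ne hu, rfl, fun w hw hwc => OneDim.corner_end hT hw hwc⟩
  choose p q hp hq hpq hseg hcor using hends
  have hcommon : ∀ i j : ι, i ≠ j → ∀ w ∈ i.1, w ∈ j.1 → w ∈ corners M := by
    intro i j hij w hwi hwj
    by_contra hwc
    exact hij (Subtype.ext (OneDim.edge_eq_of_inner i.2 j.2 hwi hwj hwc))
  have hfam : ArcFam (fun i : ι => i.1) p q := by
    refine ⟨fun i => ?_, ?_, ?_⟩
    · show ConBall 1 i.1 {p i, q i}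
      rw [hseg i]
      exact OneDim.conBall_segment (hpq i)
    · rintro i j hij w ⟨hwi, hwj⟩
      have hwc := hcommon i j hij w hwi hwj
      exact ⟨hcor i w hwi hwc, hcor j w hwj hwc⟩
    · intro i j k hij hik hjk w hwi hwj hwk
      have hwc := hcommon i j hij w hwi hwj
      obtain ⟨u, hu, T, hT, e1⟩ := i.2.at_corner hwi hwc
      obtain ⟨u', hu', T', hT', e2⟩ := j.2.at_corner hwj hwc
      obtain ⟨u'', hu'', T'', hT'', e3⟩ := k.2.at_corner hwk hwc
      have n1 : u ≠ u' := by
        rintro rfl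
        exact hij (Subtype.ext (by rw [e1, e2, hT.unique hT']))
      have n2 : u ≠ u'' := by
        rintro rfl
        exact hik (Subtype.ext (by rw [e1, e3, hT.unique hT'']))
      have n3 : u' ≠ u'' := by
        rintro rfl
        exact hjk (Subtype.ext (by rw [e2, e3, hT'.unique hT'']))
      have hsub : ({u, u', u''} : Set E) ⊆ dirs M w := by
        rintro z (rfl | rfl | hz)
        · exact hu
        · exact hu'
        · rw [mem_singleton_iff] at hz; rw [hz]; exact hu''
      have hle := ncard_le_ncard hsub (hO.fin w hwc.1)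
      have h3 : ({u, u', u''} : Set E).ncard = 3 := by
        rw [ncard_eq_three]
        exact ⟨u, u', u'', n1, n2, n3, rfl⟩
      rcases h.card w hwc.1 with h1 | h1 <;> omega
  have hfree : ∀ x, FreeEnd (fun i : ι => i.1) p q x → x ∈ M ∧ (dirs M x).ncard = 1 := by
    rintro x ⟨i, hi, hi'⟩
    have hxc : x ∈ corners M := by
      rcases hi with h1 | h1
      · rw [h1]; exact hp i
      · rw [h1]; exact hq i
    refine ⟨hxc.1, ?_⟩
    rcases h.card x hxc.1 with h1 | h1
    · exact h1
    · exfalso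
      obtain ⟨S', hS', hne, hxS'⟩ := hO.exists_two hxc h1 i.1
      exact hne (congrArg Subtype.val (hi' ⟨S', hS'⟩ hxS'))
  have hfree' : ∀ x ∈ M, (dirs M x).ncard = 1 → FreeEnd (fun i : ι => i.1) p q x := by
    intro x hx h1
    have hxc : x ∈ corners M := by
      refine ⟨hx, ?_⟩
      rintro ⟨u, hu⟩
      obtain ⟨a, ha⟩ := ncard_eq_one.1 h1
      have hu1 : u ∈ dirs M x := by rw [hu]; exact Or.inl rfl
      have hu2 : -u ∈ dirs M x := by rw [hu]; exact Or.inr rfl
      have hu0 := ne_zero_of_mem_dirs hu1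
      rw [ha, mem_singleton_iff] at hu1 hu2
      have h3 : u = -u := hu1.trans hu2.symm
      apply hu0
      have h4 : (2:ℝ) • u = 0 := by
        rw [two_smul]
        nth_rewrite 2 [h3]
        exact add_neg_cancel u
      exact (smul_eq_zero.1 h4).resolve_left two_ne_zero
    obtain ⟨S, hS, hxS⟩ := hO.cover hx
    refine ⟨⟨S, hS⟩, hcor ⟨S, hS⟩ x hxS hxc, ?_⟩
    rintro ⟨S', hS'⟩ hxS'
    exact Subtype.ext (OneDim.edge_unique_of_one hxc h1 hS' hS hxS' hxS)
  obtain ⟨J, hJ, C, hU, hd, hb⟩ := hfam.exists_components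
  have hU' : (⋃ j, C j) = M := by
    rw [hU]
    apply Subset.antisymm
    · exact iUnion_subset fun i => i.2.subset
    · intro x hx
      obtain ⟨S, hS, hxS⟩ := hO.cover hx
      exact mem_iUnion.2 ⟨⟨S, hS⟩, hxS⟩
  have hCM : ∀ j, ∀ x ∈ C j, x ∈ M := fun j x hx => hU' ▸ mem_iUnion.2 ⟨j, hx⟩
  refine ⟨J, hJ, C, hU', hd, fun j => ?_⟩
  rcases hb j with ⟨h1, h1'⟩ | ⟨u, v, h1, h2, h3, h4⟩
  · refine Or.inl ⟨h1, fun x hx => ?_⟩
    rcases h.card x (hCM j x hx) with h5 | h5
    · exact (h1' x hx (hfree' x (hCM j x hx) h5)).elim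
    · exact h5
  · exact Or.inr ⟨u, v, h1, (hfree u h2).2, (hfree v h3).2,
      fun x hx h5 => h4 x hx (hfree' x (hCM j x hx) h5)⟩

/-- **Closed curves.** A compact set which is locally a cone with two directions at each point is a
finite disjoint union of conical circles. -/
theorem exists_circles (hM : IsCompact M) (hc : ∀ x ∈ M, LocConeAt M x)
    (h2 : ∀ x ∈ M, (dirs M x).ncard = 2) : ∃ (J : Type w) (_ : Finite J) (C : J → Set E),
    (⋃ j, C j) = M ∧ (∀ j j', j ≠ j' → Disjoint (C j) (C j')) ∧ ∀ j, ConSphere 1 (C j) := by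
  obtain ⟨J, hJ, C, hU, hd, hb⟩ :=
    (Curve.mk hM hc fun x hx => Or.inr (h2 x hx)).exists_components
  refine ⟨J, hJ, C, hU, hd, fun j => ?_⟩
  rcases hb j with ⟨h1, -⟩ | ⟨u, v, h1, h3, -⟩
  · exact h1
  · exfalso
    have hu : u ∈ M := hU ▸ mem_iUnion.2 ⟨j, arc_left h1⟩
    rw [h2 u hu] at h3
    omega

end P073.TR
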