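import Vale.Agent.P073.TR.FlowBox
import Vale.Agent.P073.TR.OneDim2

/-!
# P073, block TR: generic level sets of conical functions of two variables
-/

open Set Metric Topology Filter

namespace P073.TR

open P073

universe w

variable {E : Type w} [NormedAddCommGroup E] [NormedSpace ℝ E]

/-- the conical property at an interior point, set version: the level set is locally a cone -/
theorem locConeAt_level {u : E → ℝ} {τ : Set E} {x : E} {c : ℝ} (hu : ConicalAt u x)
    (hτ : LocConeAt τ x) (hx : u x = c) : LocConeAt {y | y ∈ τ ∧ u y = c} x := by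
  obtain ⟨r, hr, hu⟩ := hu
  obtain ⟨ρ, hρ, hτ⟩ := hτ
  refine ⟨min r ρ, lt_min hr hρ, fun v hv t ht => ?_⟩
  have h1 := hu v (hv.trans (min_le_left _ _)) t ⟨ht.1.le, ht.2⟩
  have h2 := hτ v (hv.trans (min_le_right _ _)) t ht
  simp only [mem_ofPred_eq]
  rw [h2, h1, hx]
  refine and_congr_right fun _ => ?_
  constructor
  · intro h
    have h3 : t * (u (x + v) - c) = 0 := by simpa using h
    rcases mul_eq_zero.1 h3 with h4 | h4
    · exact (ht.1.ne' h4).elim
    · linarith
  · intro h
    rw [h]; simp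

theorem tc_level {u : E → ℝ} {τ : Set E} {x : E} {c : ℝ} (hu : ConicalAt u x) (hx : u x = c)
    {v : E} : v ∈ tc {y | y ∈ τ ∧ u y = c} x ↔ v ∈ tc τ x ∧ tcone u x v = 0 := by
  obtain ⟨r, hr, hrad⟩ := hu.exists_tcone
  have e1 : ∀ᶠ t : ℝ in 𝓝[>] 0, ‖t • v‖ < r := by
    have hc : Continuous (fun t : ℝ => ‖t • v‖) := by fun_prop
    exact (hc.continuousAt.eventually_lt_const (by simpa using hr)).filter_mono nhdsWithin_le_nhds
  have e2 : ∀ᶠ t : ℝ in 𝓝[>] 0, (u (x + t • v) = c ↔ tcone u x v = 0) := by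
    filter_upwards [e1, self_mem_nhdsWithin] with t ht ht0
    rw [hrad _ ht.le, hu.tcone_smul (le_of_lt ht0), hx]
    have : t ≠ 0 := ne_of_gt ht0
    simp [this]
  constructor
  · intro h
    refine ⟨?_, ?_⟩
    · have h' : ∀ᶠ t in 𝓝[>] (0:ℝ), x + t • v ∈ {y | y ∈ τ ∧ u y = c} := h
      exact h'.mono fun t ht => ht.1
    · have h' : ∀ᶠ t in 𝓝[>] (0:ℝ), x + t • v ∈ {y | y ∈ τ ∧ u y = c} := h
      obtain ⟨t, h1, h2⟩ := (h'.and e2).exists
      exact h2.1 h1.2
  · rintro ⟨h1, h2⟩
    have h1' : ∀ᶠ t in 𝓝[>] (0:ℝ), x + t • v ∈ τ := h1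
    show ∀ᶠ t in 𝓝[>] (0:ℝ), x + t • v ∈ {y | y ∈ τ ∧ u y = c}
    filter_upwards [h1', e2] with t h3 h4
    exact ⟨h3, h4.2 h2⟩

/-- the flow box in terms of the tangent cone map -/
theorem FlowBox.tcone_add {ι : Type*} {u : E → ℝ} {M : ι → Set E} {x : E} {σ : ℝ →ₗ[ℝ] E} {r : ℝ}
    (h : FlowBox u M x σ r) (hu : ConicalAt u x) (v : E) (s : ℝ) :
    tcone u x (v + s • σ 1) = tcone u x v + s := by
  obtain ⟨ρ, hρ, hrad⟩ := hu.exists_tcone
  have c1 : ∀ᶠ t : ℝ in 𝓝[>] 0, ‖t • v‖ < min r ρ ∧ ‖t * s‖ < r ∧ ‖t • (v + s • σ 1)‖ < ρ := by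
    have d1 : ContinuousAt (fun t : ℝ => ‖t • v‖) 0 := by fun_prop
    have d2 : ContinuousAt (fun t : ℝ => ‖t * s‖) 0 := by fun_prop
    have d3 : ContinuousAt (fun t : ℝ => ‖t • (v + s • σ 1)‖) 0 := by fun_prop
    have f1 := d1.eventually_lt_const (u := min r ρ) (by simpa using lt_min h.pos hρ)
    have f2 := d2.eventually_lt_const (u := r) (by simpa using h.pos)
    have f3 := d3.eventually_lt_const (u := ρ) (by simpa using hρ)
    exact (f1.and (f2.and f3)).filter_mono nhdsWithin_le_nhds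
  obtain ⟨t, ht, h1, h2, h3⟩ := eventually_unique c1
  have e1 := h.add (t • v) (t * s) (h1.trans_le (min_le_left _ _)) h2
  have e2 : x + t • v + σ (t * s) = x + t • (v + s • σ 1) := by
    have : σ (t * s) = (t * s) • σ 1 := by rw [← map_smul]; simp
    rw [this, smul_add, smul_smul, add_assoc]
  rw [e2, hrad _ h3.le, hrad _ (h1.trans_le (min_le_right _ _)).le, hu.tcone_smul ht.le,
    hu.tcone_smul ht.le] at e1
  have e3 : t * tcone u x (v + s • σ 1) = t * (tcone u x v + s) := by
    simp only [smul_eq_mul] at e1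
    linarith
  exact mul_left_cancel₀ ht.ne' e3

theorem FlowBox.tc_add {ι : Type*} {u : E → ℝ} {M : ι → Set E} {x : E} {σ : ℝ →ₗ[ℝ] E} {r : ℝ}
    (h : FlowBox u M x σ r) (i : ι) (v : E) (s : ℝ) :
    v + s • σ 1 ∈ tc (M i) x ↔ v ∈ tc (M i) x := by
  have c1 : ∀ᶠ t : ℝ in 𝓝[>] 0, (x + t • (v + s • σ 1) ∈ M i ↔ x + t • v ∈ M i) := by
    have d1 : ContinuousAt (fun t : ℝ => ‖t • v‖) 0 := by fun_prop
    have d2 : ContinuousAt (fun t : ℝ => ‖t * s‖) 0 := by fun_prop
    have f1 := d1.eventually_lt_const (u := r) (by simpa using h.pos)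
    have f2 := d2.eventually_lt_const (u := r) (by simpa using h.pos)
    filter_upwards [(f1.and f2).filter_mono nhdsWithin_le_nhds] with t ht
    have e1 := h.iff i (t • v) (t * s) ht.1 ht.2
    have e2 : x + t • v + σ (t * s) = x + t • (v + s • σ 1) := by
      have : σ (t * s) = (t * s) • σ 1 := by rw [← map_smul]; simp
      rw [this, smul_add, smul_smul, add_assoc]
    rwa [e2] at e1
  constructor
  · intro h1
    have h1' : ∀ᶠ t in 𝓝[>] (0:ℝ), x + t • (v + s • σ 1) ∈ M i := h1
    filter_upwards [h1', c1] with t a b using b.1 a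
  · intro h1
    have h1' : ∀ᶠ t in 𝓝[>] (0:ℝ), x + t • v ∈ M i := h1
    filter_upwards [h1', c1] with t a b using b.2 a

/-- coordinates in the plane -/
theorem exists_coords [FiniteDimensional ℝ E] (h2 : Module.finrank ℝ E = 2) {e : E} (he : e ≠ 0) :
    ∃ w : E, (∀ v : E, ∃ a b : ℝ, v = a • w + b • e) ∧
      ∀ a b a' b' : ℝ, a • w + b • e = a' • w + b' • e → a = a' ∧ b = b' := by
  obtain ⟨w, hw⟩ : ∃ w : E, w ∉ Submodule.span ℝ {e} := by
    by_contra hcon
    push Not at hcon
    have htop : Submodule.span ℝ {e} = ⊤ := eq_top_iff.2 fun v _ => hcon v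
    have h3 := finrank_span_singleton (K := ℝ) he
    rw [htop, finrank_top, h2] at h3
    omega
  have hli : LinearIndependent ℝ ![e, w] := by
    rw [LinearIndependent.pair_iff]
    intro s t hst
    have ht : t = 0 := by
      by_contra ht
      apply hw
      rw [Submodule.mem_span_singleton]
      refine ⟨-(t⁻¹ * s), ?_⟩
      have : w = t⁻¹ • (t • w) := by rw [smul_smul, inv_mul_cancel₀ ht, one_smul]
      rw [this, eq_neg_of_add_eq_zero_right hst, smul_neg, smul_smul, neg_smul]
    refine ⟨?_, ht⟩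
    rw [ht, zero_smul, add_zero] at hst
    exact (smul_eq_zero.1 hst).resolve_right he
  refine ⟨w, fun v => ?_, fun a b a' b' h => ?_⟩
  · have hspan : Submodule.span ℝ (range ![e, w]) = ⊤ := by
      apply Submodule.eq_top_of_finrank_eq
      rw [finrank_span_eq_card hli, h2]; rfl
    have hv : v ∈ Submodule.span ℝ (range ![e, w]) := hspan ▸ Submodule.mem_top
    rw [Matrix.range_cons, Matrix.range_cons, Matrix.range_empty, union_empty,
      singleton_union, Submodule.mem_span_pair] at hv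
    obtain ⟨a, b, hab⟩ := hv
    exact ⟨b, a, by rw [← hab]; abel⟩
  · rw [LinearIndependent.pair_iff] at hli
    have h1 : (b - b') • e + (a - a') • w = 0 := by
      rw [sub_smul, sub_smul]
      have : a • w + b • e - (a' • w + b' • e) = 0 := sub_eq_zero.2 h
      rw [← this]; abel
    obtain ⟨h3, h4⟩ := hli _ _ h1
    exact ⟨by linarith, by linarith⟩

/-- in the plane, at an interior point of the domain: two directions -/
theorem dirs_level_two [FiniteDimensional ℝ E] (h2 : Module.finrank ℝ E = 2) {ι : Type*}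
    {u : E → ℝ} {τ : Set E} {M : ι → Set E} {x : E} {c : ℝ} {σ : ℝ →ₗ[ℝ] E} {r : ℝ}
    (h : FlowBox u M x σ r) (hu : ConicalAt u x) (hx : u x = c) (hτ : τ ∈ 𝓝 x) :
    (dirs {y | y ∈ τ ∧ u y = c} x).ncard = 2 := by
  set e := σ 1 with he
  set T := tcone u x with hT
  have hTadd : ∀ v s, T (v + s • e) = T v + s := fun v s => h.tcone_add hu v s
  have hT0 : T 0 = 0 := tcone_zero u x
  have he0 : e ≠ 0 := by
    intro h0
    have := hTadd 0 1
    rw [h0, smul_zero, add_zero, hT0] at this
    norm_num at this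
  obtain ⟨w, hw, hw'⟩ := exists_coords h2 he0
  have htcτ : ∀ v, v ∈ tc τ x := by
    intro v
    have hc : ContinuousAt (fun t : ℝ => x + t • v) 0 := by fun_prop
    have h1 : τ ∈ 𝓝 (x + (0:ℝ) • v) := by simpa using hτ
    exact (hc.eventually h1).filter_mono nhdsWithin_le_nhds
  set a1 := w + (-T w) • e with ha1
  set a2 := -w + (-T (-w)) • e with ha2
  have hTa1 : T a1 = 0 := by rw [ha1, hTadd]; ring
  have hTa2 : T a2 = 0 := by rw [ha2, hTadd]; ring
  have h10 : a1 ≠ 0 := by
    intro h0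
    have := hw' 1 (-T w) 0 0 (by rw [one_smul, zero_smul, zero_smul, add_zero]; exact h0)
    exact one_ne_zero this.1
  have h20 : a2 ≠ 0 := by
    intro h0
    have := hw' (-1) (-T (-w)) 0 0 (by
      rw [neg_one_smul, zero_smul, zero_smul, add_zero]; exact h0)
    have := this.1
    norm_num at this
  have n1 := norm_pos_iff.2 h10
  have n2 := norm_pos_iff.2 h20
  rw [ncard_eq_two]
  refine ⟨‖a1‖⁻¹ • a1, ‖a2‖⁻¹ • a2, ?_, ?_⟩
  · intro heq
    have h3 : (‖a1‖⁻¹) • w + (‖a1‖⁻¹ * -T w) • e = (-‖a2‖⁻¹) • w + (‖a2‖⁻¹ * -T (-w)) • e := by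
      have e1 : (‖a1‖⁻¹) • w + (‖a1‖⁻¹ * -T w) • e = ‖a1‖⁻¹ • a1 := by
        rw [ha1, smul_add, smul_smul]
      have e2 : (-‖a2‖⁻¹) • w + (‖a2‖⁻¹ * -T (-w)) • e = ‖a2‖⁻¹ • a2 := by
        rw [ha2, smul_add, smul_smul, smul_neg, neg_smul]
      rw [e1, e2, heq]
    have h4 := (hw' _ _ _ _ h3).1
    have h5 := inv_pos.2 n1
    have h6 := inv_pos.2 n2
    linarith
  · apply Subset.antisymm
    · rintro v ⟨hv1, hv2⟩
      rw [tc_level hu hx] at hv2
      have hTv : T v = 0 := hv2.2
      obtain ⟨a, b, rfl⟩ := hw v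
      rcases lt_trichotomy a 0 with ha | ha | ha
      · right
        have e1 : a • w + b • e = (-a) • (-w + (b / -a) • e) := by
          rw [smul_add, smul_smul, mul_div_cancel₀ _ (by linarith : -a ≠ 0), smul_neg, neg_smul,
            neg_neg]
        have e2 : T (-w + (b / -a) • e) = 0 := by
          have := hTv
          rw [e1, hT, hu.tcone_smul (by linarith)] at this
          rcases smul_eq_zero.1 this with h3 | h3
          · linarith
          · exact h3
        rw [hTadd] at e2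
        have e3 : b / -a = -T (-w) := by linarith
        rw [e3, ← ha2] at e1
        rw [mem_singleton_iff, e1]
        rw [e1, norm_smul, Real.norm_of_nonneg (by linarith)] at hv1
        have : -a = ‖a2‖⁻¹ := by field_simp; linarith
        rw [this]
      · exfalso
        rw [ha, zero_smul] at hTv
        rw [hTadd, hT0] at hTv
        have hb : b = 0 := by linarith
        rw [ha, hb, zero_smul, zero_smul, add_zero, norm_zero] at hv1
        exact zero_ne_one hv1
      · left
        have e1 : a • w + b • e = a • (w + (b / a) • e) := by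
          rw [smul_add, smul_smul, mul_div_cancel₀ _ ha.ne']
        have e2 : T (w + (b / a) • e) = 0 := by
          have := hTv
          rw [e1, hT, hu.tcone_smul ha.le] at this
          rcases smul_eq_zero.1 this with h3 | h3
          · linarith
          · exact h3
        rw [hTadd] at e2
        have e3 : b / a = -T w := by linarith
        rw [e3, ← ha1] at e1
        rw [e1]
        rw [e1, norm_smul, Real.norm_of_nonneg ha.le] at hv1
        have : a = ‖a1‖⁻¹ := by field_simp; linarith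
        rw [this]
    · rintro v (rfl | hv)
      · refine ⟨?_, (tc_level hu hx).2 ⟨htcτ _, ?_⟩⟩
        · rw [norm_smul, norm_inv, norm_norm, inv_mul_cancel₀ n1.ne']
        · show T (‖a1‖⁻¹ • a1) = 0
          rw [hT, hu.tcone_smul (inv_nonneg.2 n1.le), ← hT, hTa1, smul_zero]
      · rw [mem_singleton_iff] at hv
        subst hv
        refine ⟨?_, (tc_level hu hx).2 ⟨htcτ _, ?_⟩⟩
        · rw [norm_smul, norm_inv, norm_norm, inv_mul_cancel₀ n2.ne']
        · show T (‖a2‖⁻¹ • a2) = 0
          rw [hT, hu.tcone_smul (inv_nonneg.2 n2.le), ← hT, hTa2, smul_zero]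

/-- **Generic levels in an open subset of the plane.** For all but countably many `c`, the level set
`{x ∈ U | u x = c}` is a finite disjoint union of conical circles as soon as it is compact. -/
theorem exists_generic_circles [FiniteDimensional ℝ E] (h2 : Module.finrank ℝ E = 2)
    {u : E → ℝ} {U : Set E} (hU : IsOpen U) (hu : ConicalOn u U) (huc : ContinuousOn u U) :
    ∃ C : Set ℝ, C.Countable ∧ ∀ c ∉ C, IsCompact {x | x ∈ U ∧ u x = c} →
      ∃ (J : Type w) (_ : Finite J) (Cs : J → Set E), (⋃ j, Cs j) = {x | x ∈ U ∧ u x = c} ∧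
        (∀ j j', j ≠ j' → Disjoint (Cs j) (Cs j')) ∧ ∀ j, ConSphere 1 (Cs j) := by
  obtain ⟨C, hC, hreg⟩ := exists_flowBox_real (ι := Empty) (M := fun i => i.elim) hU hu huc
    (fun i => i.elim)
  refine ⟨C, hC, fun c hc hcomp => ?_⟩
  refine exists_circles hcomp ?_ ?_
  · rintro x ⟨hx, hxc⟩
    exact locConeAt_level (hu.conicalAt hU hx) (locConeAt_of_mem_nhds (hU.mem_nhds hx)) hxc
  · rintro x ⟨hx, hxc⟩
    obtain ⟨σ, r, hb⟩ := hreg x hx (by rw [hxc]; exact hc)
    exact dirs_level_two h2 hb (hu.conicalAt hU hx) hxc (hU.mem_nhds hx)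

end P073.TR
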