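import Vale.Agent.P073.TR.Basic

/-!
# P073, block TR: Sard's theorem for linear maps on conical sets
-/

open Set Metric Topology Filter MeasureTheory

namespace P073.TR

variable {E F G : Type*} [NormedAddCommGroup E] [NormedSpace ℝ E]
  [NormedAddCommGroup F] [NormedSpace ℝ F] [NormedAddCommGroup G] [NormedSpace ℝ G]

/-- countably many centres are enough for the strata of a given dimension, in a set with a
property `P` -/
theorem exists_countable_centres {ι : Type*} [Finite ι] [FiniteDimensional ℝ E] {M : ι → Set E}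
    {Ω : Set E} (hΩ : IsOpen Ω) (H : ∀ i, ∀ x ∈ Ω, LocConeAt (M i) x) (P : E → Prop) :
    ∃ T : Set E, T.Countable ∧ (∀ x ∈ T, x ∈ Ω ∧ P x) ∧
      ∀ y ∈ Ω, P y → ∃ x ∈ T, y - x ∈ invF M x ∧ invF M y = invF M x := by
  classical
  have key : ∀ k : ℕ, ∃ T : Set E, T.Countable ∧ (∀ x ∈ T, x ∈ Ω ∧ P x) ∧
      ∀ y ∈ Ω, P y → Module.finrank ℝ (invF M y) = k → ∃ x ∈ T, y - x ∈ invF M x ∧
        invF M y = invF M x := by
    intro k
    set B : Set E := {x | x ∈ Ω ∧ P x ∧ Module.finrank ℝ (invF M x) = k} with hB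
    have h1 : ∀ x ∈ B, ∃ r > 0, ball x r ⊆ Ω ∧ LocStr M x r := fun x hx => exists_locStr hΩ H hx.1
    choose! r hr hrΩ hrL using h1
    obtain ⟨T, hTB, hT, hcov⟩ := TopologicalSpace.countable_cover_nhdsWithin
      (f := fun x => ball x (r x)) (s := B)
      (fun x hx => mem_nhdsWithin_of_mem_nhds (ball_mem_nhds x (hr x hx)))
    refine ⟨T, hT, fun x hx => ⟨(hTB hx).1, (hTB hx).2.1⟩, fun y hyΩ hyP hyk => ?_⟩
    obtain ⟨x, hxT, hyx⟩ := mem_iUnion₂.1 (hcov ⟨hyΩ, hyP, hyk⟩)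
    have hxB := hTB hxT
    have hn : ‖y - x‖ < r x := by rwa [mem_ball, dist_eq_norm] at hyx
    have hy : x + (y - x) = y := by abel
    have hmem : y - x ∈ invF M x := by
      apply (hrL x hxB).mem_of_finrank_le hn
      rw [hy, hyk, hxB.2.2]
    refine ⟨x, hxT, hmem, ?_⟩
    have := (hrL x hxB).inv_eq _ hn hmem
    rwa [hy] at this
  choose T hT hTP hTc using key
  refine ⟨⋃ k, T k, countable_iUnion hT, fun x hx => ?_, fun y hy hyP => ?_⟩
  · obtain ⟨k, hk⟩ := mem_iUnion.1 hx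
    exact hTP k x hk
  · obtain ⟨x, hx, h⟩ := hTc _ y hy hyP rfl
    exact ⟨x, mem_iUnion.2 ⟨_, hx⟩, h⟩

/-- a proper affine subspace is null -/
theorem measure_translate_submodule [FiniteDimensional ℝ F] [MeasurableSpace F] [BorelSpace F]
    (μ : Measure F) [μ.IsAddHaarMeasure] (W : Submodule ℝ F) (hW : W ≠ ⊤) (c : F) :
    μ {y | y - c ∈ W} = 0 := by
  have h1 : {y | y - c ∈ W} = (fun y => y + -c) ⁻¹' (W : Set F) := by
    ext y; simp [sub_eq_add_neg]
  rw [h1, measure_preimage_add_right]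
  exact Measure.addHaar_submodule μ W hW

/-- **Sard's theorem** for a linear map on a finite family of conical sets: for almost every value
`t`, the linear map is onto already on the common invariance space, at each point of the fibre. -/
theorem sard {ι : Type*} [Finite ι] [FiniteDimensional ℝ E] [FiniteDimensional ℝ F]
    [MeasurableSpace F] [BorelSpace F] (μ : Measure F) [μ.IsAddHaarMeasure] {M : ι → Set E}
    {Ω : Set E} (hΩ : IsOpen Ω) (H : ∀ i, ∀ x ∈ Ω, LocConeAt (M i) x) (L : E →ₗ[ℝ] F) :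
    ∀ᵐ t ∂μ, ∀ x ∈ Ω, L x = t → (invF M x).map L = ⊤ := by
  obtain ⟨T, hT, hTP, hTc⟩ := exists_countable_centres hΩ H (fun x => (invF M x).map L ≠ ⊤)
  rw [ae_iff]
  have hsub : {t | ¬ ∀ x ∈ Ω, L x = t → (invF M x).map L = ⊤} ⊆
      ⋃ x ∈ T, {y | y - L x ∈ (invF M x).map L} := by
    intro t ht
    simp only [mem_ofPred_eq, not_forall] at ht
    obtain ⟨y, hyΩ, hyt, hy⟩ := ht
    obtain ⟨x, hxT, hmem, -⟩ := hTc y hyΩ hy
    refine mem_iUnion₂.2 ⟨x, hxT, ?_⟩
    refine ⟨y - x, hmem, ?_⟩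
    rw [map_sub, hyt]
  refine measure_mono_null hsub ?_
  rw [measure_biUnion_null_iff hT]
  intro x hx
  exact measure_translate_submodule μ _ (hTP x hx).2 _

/-- **Sard's theorem**, real valued: all but countably many values are regular. -/
theorem sard_real {ι : Type*} [Finite ι] [FiniteDimensional ℝ E] {M : ι → Set E}
    {Ω : Set E} (hΩ : IsOpen Ω) (H : ∀ i, ∀ x ∈ Ω, LocConeAt (M i) x) (L : E →ₗ[ℝ] ℝ) :
    ∃ C : Set ℝ, C.Countable ∧ ∀ x ∈ Ω, L x ∉ C → ∃ v ∈ invF M x, L v = 1 := by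
  obtain ⟨T, hT, hTP, hTc⟩ := exists_countable_centres hΩ H (fun x => ∀ v ∈ invF M x, L v = 0)
  refine ⟨L '' T, hT.image _, fun y hy hyC => ?_⟩
  by_cases hz : ∀ v ∈ invF M y, L v = 0
  · exfalso
    obtain ⟨x, hxT, hmem, -⟩ := hTc y hy hz
    apply hyC
    refine ⟨x, hxT, ?_⟩
    have := (hTP x hxT).2 _ hmem
    rw [map_sub, sub_eq_zero] at this
    exact this.symm
  · push Not at hz
    obtain ⟨v, hv, hv0⟩ := hz
    refine ⟨(L v)⁻¹ • v, Submodule.smul_mem _ _ hv, ?_⟩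
    rw [map_smul, smul_eq_mul, inv_mul_cancel₀ hv0]

end P073.TR
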