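import Vale.Agent.P073.PR.Circle
import Vale.Agent.P073.PR720.Cx

/-!
# P073, block TR: gluing conical arcs to arcs and circles
-/

open Set Metric Topology Filter

namespace P073.TR

open P073

variable {E F G : Type*} [NormedAddCommGroup E] [NormedSpace ℝ E]
  [NormedAddCommGroup F] [NormedSpace ℝ F] [NormedAddCommGroup G] [NormedSpace ℝ G]

theorem arc_ne {A : Set E} {p q : E} (h : ConBall 1 A {p, q}) : p ≠ q := by
  rintro rfl
  obtain ⟨_, φ, hφ⟩ := h
  rw [pair_eq_singleton, image_singleton] at hφ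
  have h1 : (fun _ => 1 : Fin 1 → ℝ) ∈ sphere (0 : Fin 1 → ℝ) 1 := by
    rw [mem_sphere_zero_iff_norm, pi_norm_const]; simp
  have h2 : (fun _ => -1 : Fin 1 → ℝ) ∈ sphere (0 : Fin 1 → ℝ) 1 := by
    rw [mem_sphere_zero_iff_norm, pi_norm_const]; simp
  rw [← hφ] at h1 h2
  have h3 := h1.trans h2.symm
  have h4 := congrFun h3 0
  norm_num at h4

theorem arc_left {A : Set E} {p q : E} (h : ConBall 1 A {p, q}) : p ∈ A := h.1 (Or.inl rfl)

theorem arc_right {A : Set E} {p q : E} (h : ConBall 1 A {p, q}) : q ∈ A := h.1 (Or.inr rfl)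

theorem arc_symm {A : Set E} {p q : E} (h : ConBall 1 A {p, q}) : ConBall 1 A {q, p} := by
  rwa [pair_comm]

/-- the homeomorphism between two pairs of points -/
theorem exists_pair_homeo {p q : E} {p' q' : F} (h : p ≠ q) (h' : p' ≠ q') :
    ∃ φ : ConHomeo ({p, q} : Set E) {p', q'}, φ.toFun p = p' ∧ φ.toFun q = q' := by
  let y : Bool → E := fun b => cond b p q
  let x : Bool → F := fun b => cond b p' q'
  have hy : Function.Injective y := by
    intro a b hab
    cases a <;> cases b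
    · rfl
    · exact (h hab.symm).elim
    · exact (h hab).elim
    · rfl
  have hx : Function.Injective x := by
    intro a b hab
    cases a <;> cases b
    · rfl
    · exact (h' hab.symm).elim
    · exact (h' hab).elim
    · rfl
  obtain ⟨Φ, hΦ⟩ := PR720.exists_iso_zero hy hx
    (fun z _ => ⟨univ, univ_mem, toFinite _⟩) (fun z _ => ⟨univ, univ_mem, toFinite _⟩)
  have r1 : range y = {p, q} := by
    ext z; simp [y, eq_comm]; tauto
  have r2 : range x = {p', q'} := by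
    ext z; simp [x, eq_comm]; tauto
  exact ⟨Φ.cast r1 r2, hΦ true, hΦ false⟩

/-- two conical arcs are homeomorphic, with prescribed values at the end points -/
theorem exists_arc_homeo {A : Set E} {B : Set F} {p q : E} {p' q' : F} (h : ConBall 1 A {p, q})
    (h' : ConBall 1 B {p', q'}) : ∃ φ : ConHomeo A B, φ.toFun p = p' ∧ φ.toFun q = q' := by
  obtain ⟨φ, h1, h2⟩ := exists_pair_homeo (arc_ne h) (arc_ne h')
  obtain ⟨Φ, hΦ, -⟩ := h.exists_extend h' φ
  exact ⟨Φ, by rw [hΦ (Or.inl rfl), h1], by rw [hΦ (Or.inr rfl), h2]⟩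

/-- gluing two arcs at one common end point -/
theorem arc_union {A B : Set E} {p x q : E} (hA : ConBall 1 A {p, x}) (hB : ConBall 1 B {x, q})
    (hAB : A ∩ B ⊆ {x}) : ConBall 1 (A ∪ B) {p, q} := by
  have m1 : ConBall 1 (Icc (0:ℝ) 1) {0, 1} := conBall_Icc zero_lt_one
  have m2 : ConBall 1 (Icc (1:ℝ) 2) {1, 2} := conBall_Icc one_lt_two
  obtain ⟨f, f0, f1⟩ := exists_arc_homeo m1 hA
  obtain ⟨g, g1, g2⟩ := exists_arc_homeo m2 hB
  have hint : Icc (0:ℝ) 1 ∩ Icc 1 2 = {1} := by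
    ext t
    simp only [mem_inter_iff, mem_Icc, mem_singleton_iff]
    constructor
    · rintro ⟨⟨-, h1⟩, h2, -⟩; exact le_antisymm h1 h2
    · rintro rfl; norm_num
  have hag : EqOn f.toFun g.toFun (Icc (0:ℝ) 1 ∩ Icc 1 2) := by
    rw [hint]
    intro t ht
    rw [mem_singleton_iff] at ht
    rw [ht, f1, g1]
  have himg : A ∩ B ⊆ f.toFun '' (Icc (0:ℝ) 1 ∩ Icc 1 2) := by
    rw [hint, image_singleton, f1]; exact hAB
  have hun : Icc (0:ℝ) 1 ∪ Icc 1 2 = Icc 0 2 := Icc_union_Icc_eq_Icc zero_le_one one_le_two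
  have k1 := ConHomeo.glue_left f g isClosed_Icc isClosed_Icc hA.isClosed hB.isClosed hag himg
  have k2 := ConHomeo.glue_right f g isClosed_Icc isClosed_Icc hA.isClosed hB.isClosed hag himg
  set Ψ := ConHomeo.glue f g isClosed_Icc isClosed_Icc hA.isClosed hB.isClosed hag himg with hΨ
  have m := (conBall_Icc (s := 0) (t := 2) two_pos).image Ψ hun.symm.subset
  rw [← hun, Ψ.image_eq, image_pair] at m
  have e0 : Ψ.toFun 0 = p := (k1 (x := (0:ℝ)) ⟨le_rfl, zero_le_one⟩).trans f0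
  have e2 : Ψ.toFun 2 = q := (k2 (x := (2:ℝ)) ⟨one_le_two, le_rfl⟩).trans g2
  rwa [e0, e2] at m

/-! ### The circle as the union of two arcs -/

theorem kap0_apply (t : ℝ) : kap 0 t = ![cx t, cy t] := by
  unfold kap mh; simp

/-- the upper half of the circle -/
theorem upper_eq : kap 0 '' Icc 0 4 = {v | v ∈ sphere (0 : Fin 2 → ℝ) 1 ∧ 0 ≤ v 1} := by
  have h0 : |(0:ℝ)| < 1 := by simp
  apply Subset.antisymm
  · rintro _ ⟨t, ht, rfl⟩
    refine ⟨kap_mem h0 ⟨ht.1, ht.2.trans (by norm_num)⟩, ?_⟩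
    rw [kap0_apply]
    show 0 ≤ cy t
    rcases le_total t 1 with h | h
    · rw [(c01 ht.1 h).2]; exact ht.1
    rcases le_total t 3 with h' | h'
    · rw [(c13 h h').2]; exact zero_le_one
    · rw [(c35 h' (by linarith [ht.2])).2]; linarith [ht.2]
  · rintro v ⟨hv, hv1⟩
    rw [← kap_image h0] at hv
    obtain ⟨t, ht, rfl⟩ := hv
    refine ⟨t, ⟨ht.1, ?_⟩, rfl⟩
    by_contra h4
    push Not at h4
    rw [kap0_apply] at hv1
    have hv1' : 0 ≤ cy t := hv1
    rcases le_total t 5 with h | h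
    · rw [(c35 (by linarith) h).2] at hv1'; linarith
    rcases le_total t 7 with h' | h'
    · rw [(c57 h h').2] at hv1'; linarith
    · rw [(c78 h' ht.2.le).2] at hv1'; linarith [ht.2]

theorem conBall_upper : ConBall 1 {v | v ∈ sphere (0 : Fin 2 → ℝ) 1 ∧ 0 ≤ v 1}
    {![1, 0], ![-1, 0]} := by
  have h := conBall_kap (h := 0) (by simp) le_rfl (show (0:ℝ) < 4 by norm_num) (by norm_num)
  rw [upper_eq, kap_zero] at h
  have h4 : kap 0 4 = ![-1, 0] := by
    rw [kap0_apply, (c35 (t := 4) (by norm_num) (by norm_num)).1,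
      (c35 (t := 4) (by norm_num) (by norm_num)).2]
    norm_num
  rwa [h4] at h

/-- the reflection of the plane -/
noncomputable def reflE : (Fin 2 → ℝ) →ₗ[ℝ] (Fin 2 → ℝ) where
  toFun v := ![v 0, - v 1]
  map_add' v w := by ext i; fin_cases i <;> simp [add_comm]
  map_smul' c v := by ext i; fin_cases i <;> simp

theorem reflE_apply (v : Fin 2 → ℝ) : reflE v = ![v 0, - v 1] := rfl

theorem reflE_reflE (v : Fin 2 → ℝ) : reflE (reflE v) = v := by
  ext i; fin_cases i <;> simp [reflE_apply]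

/-- the reflection as a conical homeomorphism -/
noncomputable def reflH : ConHomeo (univ : Set (Fin 2 → ℝ)) (univ : Set (Fin 2 → ℝ)) where
  toFun := reflE
  invFun := reflE
  mapsTo := fun _ _ => mem_univ _
  mapsTo_inv := fun _ _ => mem_univ _
  left_inv := fun v _ => reflE_reflE v
  right_inv := fun v _ => reflE_reflE v
  cont := (LinearMap.continuous_of_finiteDimensional reflE).continuousOn
  cont_inv := (LinearMap.continuous_of_finiteDimensional reflE).continuousOn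
  conical := conicalOn_linear reflE locCone_univ.conicalSet

theorem reflE_mem_sphere {v : Fin 2 → ℝ} :
    reflE v ∈ sphere (0 : Fin 2 → ℝ) 1 ↔ v ∈ sphere (0 : Fin 2 → ℝ) 1 := by
  rw [mem_sphere_fin2, mem_sphere_fin2, reflE_apply]
  simp

theorem conBall_lower : ConBall 1 {v | v ∈ sphere (0 : Fin 2 → ℝ) 1 ∧ v 1 ≤ 0}
    {![1, 0], ![-1, 0]} := by
  have h := conBall_upper.image reflH (subset_univ _)
  have e1 : reflH.toFun '' {v | v ∈ sphere (0 : Fin 2 → ℝ) 1 ∧ 0 ≤ v 1} =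
      {v | v ∈ sphere (0 : Fin 2 → ℝ) 1 ∧ v 1 ≤ 0} := by
    ext v
    constructor
    · rintro ⟨w, ⟨hw, hw1⟩, rfl⟩
      refine ⟨reflE_mem_sphere.2 hw, ?_⟩
      show (reflE w) 1 ≤ 0
      rw [reflE_apply]
      show - w 1 ≤ 0
      linarith
    · rintro ⟨hv, hv1⟩
      refine ⟨reflE v, ⟨reflE_mem_sphere.2 hv, ?_⟩, reflE_reflE v⟩
      rw [reflE_apply]
      show 0 ≤ - v 1
      linarith
  rw [e1, image_pair] at h
  have e2 : reflH.toFun ![1, 0] = ![1, 0] := by
    show reflE ![1, 0] = ![1, 0]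
    rw [reflE_apply]; simp
  have e3 : reflH.toFun ![-1, 0] = ![-1, 0] := by
    show reflE ![-1, 0] = ![-1, 0]
    rw [reflE_apply]; simp
  rwa [e2, e3] at h

/-- gluing two arcs at both end points -/
theorem circle_union {A B : Set E} {p q : E} (hA : ConBall 1 A {p, q}) (hB : ConBall 1 B {p, q})
    (hAB : A ∩ B ⊆ {p, q}) : ConSphere 1 (A ∪ B) := by
  obtain ⟨f, f0, f1⟩ := exists_arc_homeo conBall_upper hA
  obtain ⟨g, g0, g1⟩ := exists_arc_homeo conBall_lower hB
  have hint : {v | v ∈ sphere (0 : Fin 2 → ℝ) 1 ∧ 0 ≤ v 1} ∩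
      {v | v ∈ sphere (0 : Fin 2 → ℝ) 1 ∧ v 1 ≤ 0} = {![1, 0], ![-1, 0]} := by
    ext v
    simp only [mem_inter_iff, mem_ofPred_eq, mem_insert_iff, mem_singleton_iff]
    constructor
    · rintro ⟨⟨h1, h2⟩, -, h3⟩
      have h4 : v 1 = 0 := le_antisymm h3 h2
      rw [mem_sphere_fin2] at h1
      have h5 : |v 0| = 1 := by
        rcases h1.2.2 with h | h
        · exact h
        · rw [h4] at h; simp at h
      rcases eq_or_eq_neg_of_abs_eq h5 with h | h
      · left; ext i; fin_cases i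
        · exact h
        · exact h4
      · right; ext i; fin_cases i
        · exact h
        · exact h4
    · rintro (rfl | rfl)
      · rw [mem_sphere_fin2]; simp
      · rw [mem_sphere_fin2]; simp
  have hag : EqOn f.toFun g.toFun ({v | v ∈ sphere (0 : Fin 2 → ℝ) 1 ∧ 0 ≤ v 1} ∩
      {v | v ∈ sphere (0 : Fin 2 → ℝ) 1 ∧ v 1 ≤ 0}) := by
    rw [hint]
    rintro v (rfl | hv)
    · rw [f0, g0]
    · rw [mem_singleton_iff] at hv
      rw [hv, f1, g1]
  have himg : A ∩ B ⊆ f.toFun '' ({v | v ∈ sphere (0 : Fin 2 → ℝ) 1 ∧ 0 ≤ v 1} ∩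
      {v | v ∈ sphere (0 : Fin 2 → ℝ) 1 ∧ v 1 ≤ 0}) := by
    rw [hint, image_pair, f0, f1]; exact hAB
  have hun : {v | v ∈ sphere (0 : Fin 2 → ℝ) 1 ∧ 0 ≤ v 1} ∪
      {v | v ∈ sphere (0 : Fin 2 → ℝ) 1 ∧ v 1 ≤ 0} = sphere (0 : Fin 2 → ℝ) 1 := by
    ext v
    simp only [mem_union, mem_ofPred_eq]
    constructor
    · rintro (h | h) <;> exact h.1
    · intro h
      rcases le_total 0 (v 1) with h1 | h1
      · exact Or.inl ⟨h, h1⟩
      · exact Or.inr ⟨h, h1⟩
  exact ⟨((ConHomeo.glue f g conBall_upper.isClosed conBall_lower.isClosed hA.isClosed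
    hB.isClosed hag himg).cast hun rfl).symm⟩

end P073.TR
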