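import Vale.Agent.P073.ConicalBody

/-!
# P073, block TR: tangent cones and invariance spaces of conical sets

`tc M x` is the tangent cone of the set `M` at `x`, `inv M x` the space of the directions in which
this cone is invariant. For a finite family `M i` of sets, the strata of the family are defined by
the dimension of the common invariance space `invF M x`.
-/

open Set Metric Topology Filter

namespace P073.TR

variable {E F G : Type*} [NormedAddCommGroup E] [NormedSpace ℝ E]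
  [NormedAddCommGroup F] [NormedSpace ℝ F] [NormedAddCommGroup G] [NormedSpace ℝ G]

/-- the tangent cone of `M` at `x` -/
def tc (M : Set E) (x : E) : Set E := {v | ∀ᶠ t in 𝓝[>] (0:ℝ), x + t • v ∈ M}

/-- the invariance space of the tangent cone -/
def inv (M : Set E) (x : E) : Submodule ℝ E where
  carrier := {v | ∀ (s : ℝ) (u : E), u + s • v ∈ tc M x ↔ u ∈ tc M x}
  zero_mem' := by intro s u; simp
  add_mem' := by
    intro v w hv hw s u
    rw [smul_add, ← add_assoc]
    exact (hw s _).trans (hv s u)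
  smul_mem' := by
    intro c v hv s u
    rw [smul_smul]
    exact hv _ u

theorem mem_inv {M : Set E} {x v : E} :
    v ∈ inv M x ↔ ∀ (s : ℝ) (u : E), u + s • v ∈ tc M x ↔ u ∈ tc M x := Iff.rfl

theorem tc_add_of_mem {M : Set E} {x v : E} (hv : v ∈ inv M x) (u : E) :
    u + v ∈ tc M x ↔ u ∈ tc M x := by
  have := hv 1 u; rwa [one_smul] at this

theorem tc_smul_iff {M : Set E} {x : E} {c : ℝ} (hc : 0 < c) (v : E) :
    c • v ∈ tc M x ↔ v ∈ tc M x := by
  suffices h : ∀ {c : ℝ} (_ : 0 < c) (v : E), v ∈ tc M x → c • v ∈ tc M x by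
    refine ⟨fun hv => ?_, h hc v⟩
    have := h (inv_pos.2 hc) _ hv
    rwa [smul_smul, inv_mul_cancel₀ hc.ne', one_smul] at this
  intro c hc v hv
  have hlim : Tendsto (fun t : ℝ => t * c) (𝓝[>] 0) (𝓝[>] 0) := by
    apply tendsto_nhdsWithin_of_tendsto_nhds_of_eventually_within
    · have : Continuous (fun t : ℝ => t * c) := by fun_prop
      have := this.tendsto 0
      simp only [zero_mul] at this
      exact this.mono_left nhdsWithin_le_nhds
    · filter_upwards [self_mem_nhdsWithin] with t ht using mul_pos ht hc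
  have h2 : ∀ᶠ t in 𝓝[>] (0:ℝ), x + (t * c) • v ∈ M := hlim.eventually hv
  filter_upwards [h2] with t ht
  rwa [smul_smul]

theorem eventually_unique {P : ℝ → Prop} (h : ∀ᶠ t : ℝ in 𝓝[>] 0, P t) : ∃ t > 0, P t := by
  obtain ⟨t, ht, hP⟩ := (h.and self_mem_nhdsWithin).exists
  exact ⟨t, hP, ht⟩

/-- inside the radius of conicality `x + s v ∈ M ↔ v ∈ tc M x` -/
theorem mem_tc_iff {M : Set E} {x : E} {r : ℝ}
    (H : ∀ v : E, ‖v‖ ≤ r → ∀ t ∈ Ioc (0:ℝ) 1, (x + t • v ∈ M ↔ x + v ∈ M))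
    {v : E} {s : ℝ} (hs : 0 < s) (hsv : ‖s • v‖ ≤ r) : v ∈ tc M x ↔ x + s • v ∈ M := by
  have key : ∀ t ∈ Ioc 0 s, (x + t • v ∈ M ↔ x + s • v ∈ M) := by
    intro t ht
    have h1 : t / s ∈ Ioc (0:ℝ) 1 := ⟨div_pos ht.1 hs, (div_le_one hs).2 ht.2⟩
    have h2 := H (s • v) hsv (t / s) h1
    rwa [smul_smul, div_mul_cancel₀ _ hs.ne'] at h2
  constructor
  · intro hv
    obtain ⟨t, ht, h1⟩ : ∃ t ∈ Ioc 0 s, x + t • v ∈ M := by
      have h3 : ∀ᶠ t in 𝓝[>] (0:ℝ), t ∈ Ioc 0 s := Ioc_mem_nhdsGT hs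
      obtain ⟨t, h1, h2⟩ := (h3.and hv).exists
      exact ⟨t, h1, h2⟩
    exact (key t ht).1 h1
  · intro hv
    filter_upwards [Ioc_mem_nhdsGT hs] with t ht
    exact (key t ht).2 hv

theorem _root_.P073.LocConeAt.exists_tc {M : Set E} {x : E} (H : LocConeAt M x) :
    ∃ r > 0, ∀ v : E, ‖v‖ ≤ r → (x + v ∈ M ↔ v ∈ tc M x) := by
  obtain ⟨r, hr, H⟩ := H
  refine ⟨r, hr, fun v hv => ?_⟩
  have := mem_tc_iff H (v := v) one_pos (by rwa [one_smul])
  rw [this, one_smul]

theorem locConeAt_of_tc {M : Set E} {x : E} {r : ℝ} (hr : 0 < r)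
    (H : ∀ v : E, ‖v‖ ≤ r → (x + v ∈ M ↔ v ∈ tc M x)) : LocConeAt M x := by
  refine ⟨r, hr, fun v hv t ht => ?_⟩
  rw [H v hv, H (t • v) (norm_smul_le_of_mem_Icc ⟨ht.1.le, ht.2⟩ hv), tc_smul_iff ht.1]

/-- the tangent cone at a nearby point in terms of the tangent cone at `x` -/
theorem tc_add_eventually {M : Set E} {x : E} {r : ℝ}
    (H : ∀ v : E, ‖v‖ ≤ r → (x + v ∈ M ↔ v ∈ tc M x)) {v : E} (hv : ‖v‖ < r)
    (Hv : LocConeAt M (x + v)) (w : E) :
    ∀ᶠ t : ℝ in 𝓝[>] 0, (v + t • w ∈ tc M x ↔ w ∈ tc M (x + v)) := by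
  obtain ⟨ρ, hρ, K⟩ := Hv.exists_tc
  have e1 : ∀ᶠ t : ℝ in 𝓝[>] 0, ‖v + t • w‖ < r := by
    have hc : Continuous (fun t : ℝ => ‖v + t • w‖) := by fun_prop
    exact (hc.continuousAt.eventually_lt_const (by simpa using hv)).filter_mono nhdsWithin_le_nhds
  have e2 : ∀ᶠ t : ℝ in 𝓝[>] 0, ‖t • w‖ < ρ := by
    have hc : Continuous (fun t : ℝ => ‖t • w‖) := by fun_prop
    exact (hc.continuousAt.eventually_lt_const (by simpa using hρ)).filter_mono nhdsWithin_le_nhds
  filter_upwards [e1, e2, self_mem_nhdsWithin] with t h1 h2 ht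
  rw [← H _ h1.le, ← add_assoc, K _ h2.le, tc_smul_iff ht]

section near

variable {M : Set E} {x : E} {r : ℝ} (H : ∀ v : E, ‖v‖ ≤ r → (x + v ∈ M ↔ v ∈ tc M x))
  {v : E} (hv : ‖v‖ < r) (Hv : LocConeAt M (x + v))

include H hv Hv

theorem inv_le_near : inv M x ≤ inv M (x + v) := by
  intro w hw s u
  obtain ⟨t, ht, a1, a2⟩ := eventually_unique
    ((tc_add_eventually H hv Hv (u + s • w)).and (tc_add_eventually H hv Hv u))
  have b1 : v + t • (u + s • w) = (v + t • u) + (t * s) • w := by module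
  rw [← a1, ← a2, b1]
  exact hw _ _

theorem self_mem_inv_near : v ∈ inv M (x + v) := by
  intro s u
  have e1 := tc_add_eventually H hv Hv (u + s • v)
  have e2 : ∀ᶠ t : ℝ in 𝓝[>] 0, (v + (t / (1 + t * s)) • u ∈ tc M x ↔ u ∈ tc M (x + v)) := by
    have hlim : Tendsto (fun t : ℝ => t / (1 + t * s)) (𝓝[>] 0) (𝓝[>] 0) := by
      apply tendsto_nhdsWithin_of_tendsto_nhds_of_eventually_within
      · have hc : ContinuousAt (fun t : ℝ => t / (1 + t * s)) 0 := by
          apply ContinuousAt.div (by fun_prop) (by fun_prop)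
          simp
        have := hc.tendsto
        simp only [zero_div] at this
        exact this.mono_left nhdsWithin_le_nhds
      · have hpos : ∀ᶠ t : ℝ in 𝓝[>] 0, 0 < 1 + t * s := by
          have hc : Continuous (fun t : ℝ => 1 + t * s) := by fun_prop
          exact (hc.continuousAt.eventually_const_lt (by simp)).filter_mono nhdsWithin_le_nhds
        filter_upwards [hpos, self_mem_nhdsWithin] with t h1 h2
        exact div_pos h2 h1
    exact hlim.eventually (tc_add_eventually H hv Hv u)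
  have e3 : ∀ᶠ t : ℝ in 𝓝[>] 0, 0 < 1 + t * s := by
    have hc : Continuous (fun t : ℝ => 1 + t * s) := by fun_prop
    exact (hc.continuousAt.eventually_const_lt (by simp)).filter_mono nhdsWithin_le_nhds
  obtain ⟨t, ht, ⟨a1, a2⟩, a3⟩ := eventually_unique ((e1.and e2).and e3)
  have b1 : v + t • (u + s • v) = (1 + t * s) • (v + (t / (1 + t * s)) • u) := by
    rw [smul_add (1 + t * s), smul_smul, mul_div_cancel₀ _ a3.ne']
    module
  rw [← a1, b1, tc_smul_iff a3, a2]

theorem tc_near_of_mem (hvV : v ∈ inv M x) : tc M (x + v) = tc M x := by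
  ext w
  obtain ⟨t, ht, a1⟩ := eventually_unique (tc_add_eventually H hv Hv w)
  rw [← a1, add_comm v, tc_add_of_mem hvV, tc_smul_iff ht]

theorem inv_near_of_mem (hvV : v ∈ inv M x) : inv M (x + v) = inv M x := by
  ext w
  rw [mem_inv, mem_inv, tc_near_of_mem H hv Hv hvV]

end near

/-! ### Finite families -/

/-- the common invariance space of a family of sets -/
def invF {ι : Type*} (M : ι → Set E) (x : E) : Submodule ℝ E := ⨅ i, inv (M i) x

theorem mem_invF {ι : Type*} {M : ι → Set E} {x v : E} :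
    v ∈ invF M x ↔ ∀ i, v ∈ inv (M i) x := by
  simp [invF]

/-- the local structure near a point -/
structure LocStr {ι : Type*} (M : ι → Set E) (x : E) (r : ℝ) : Prop where
  pos : 0 < r
  iff : ∀ i, ∀ v : E, ‖v‖ < r → (x + v ∈ M i ↔ v ∈ tc (M i) x)
  tc_eq : ∀ i, ∀ v : E, ‖v‖ < r → v ∈ invF M x → tc (M i) (x + v) = tc (M i) x
  inv_eq : ∀ v : E, ‖v‖ < r → v ∈ invF M x → invF M (x + v) = invF M x
  inv_le : ∀ v : E, ‖v‖ < r → invF M x ≤ invF M (x + v)
  self_mem : ∀ v : E, ‖v‖ < r → v ∈ invF M (x + v)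

theorem LocStr.mono {ι : Type*} {M : ι → Set E} {x : E} {r r' : ℝ} (h : LocStr M x r)
    (hr' : 0 < r') (hle : r' ≤ r) : LocStr M x r' where
  pos := hr'
  iff i v hv := h.iff i v (hv.trans_le hle)
  tc_eq i v hv := h.tc_eq i v (hv.trans_le hle)
  inv_eq v hv := h.inv_eq v (hv.trans_le hle)
  inv_le v hv := h.inv_le v (hv.trans_le hle)
  self_mem v hv := h.self_mem v (hv.trans_le hle)

theorem exists_locStr {ι : Type*} [Finite ι] {M : ι → Set E} {Ω : Set E} (hΩ : IsOpen Ω)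
    (H : ∀ i, ∀ x ∈ Ω, LocConeAt (M i) x) {x : E} (hx : x ∈ Ω) :
    ∃ r > 0, ball x r ⊆ Ω ∧ LocStr M x r := by
  classical
  have h1 : ∀ i, ∃ r > 0, ∀ v : E, ‖v‖ ≤ r → (x + v ∈ M i ↔ v ∈ tc (M i) x) :=
    fun i => (H i x hx).exists_tc
  choose ρ hρ hρ' using h1
  obtain ⟨δ, hδ, hb⟩ := Metric.isOpen_iff.1 hΩ x hx
  obtain ⟨r, hr, hrρ, hrδ⟩ : ∃ r > 0, (∀ i, r ≤ ρ i) ∧ r ≤ δ := by
    cases nonempty_fintype ι
    rcases isEmpty_or_nonempty ι with he | hne
    · exact ⟨δ, hδ, fun i => (he.false i).elim, le_rfl⟩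
    · refine ⟨min (Finset.univ.inf' Finset.univ_nonempty ρ) δ, ?_, fun i => ?_, min_le_right _ _⟩
      · apply lt_min _ hδ
        rw [Finset.lt_inf'_iff]
        exact fun i _ => hρ i
      · exact (min_le_left _ _).trans (Finset.inf'_le _ (Finset.mem_univ i))
  have hC : ∀ i, ∀ v : E, ‖v‖ < r → LocConeAt (M i) (x + v) := by
    intro i v hv
    apply H i _ (hb _)
    rw [mem_ball, dist_eq_norm, add_sub_cancel_left]
    exact hv.trans_le hrδ
  have hH : ∀ i, ∀ v : E, ‖v‖ ≤ r → (x + v ∈ M i ↔ v ∈ tc (M i) x) :=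
    fun i v hv => hρ' i v (hv.trans (hrρ i))
  refine ⟨r, hr, (ball_subset_ball hrδ).trans hb, hr, fun i v hv => hH i v hv.le, ?_, ?_, ?_, ?_⟩
  · intro i v hv hvV
    exact tc_near_of_mem (hH i) hv (hC i v hv) (mem_invF.1 hvV i)
  · intro v hv hvV
    unfold invF
    congr 1
    funext i
    exact inv_near_of_mem (hH i) hv (hC i v hv) (mem_invF.1 hvV i)
  · intro v hv
    exact iInf_mono fun i => inv_le_near (hH i) hv (hC i v hv)
  · intro v hv
    exact mem_invF.2 fun i => self_mem_inv_near (hH i) hv (hC i v hv)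

/-- near `x`, a point whose invariance space has the same dimension is in `x + invF M x` -/
theorem LocStr.mem_of_finrank_le {ι : Type*} [FiniteDimensional ℝ E] {M : ι → Set E} {x : E}
    {r : ℝ} (h : LocStr M x r) {v : E} (hv : ‖v‖ < r)
    (hle : Module.finrank ℝ (invF M (x + v)) ≤ Module.finrank ℝ (invF M x)) :
    v ∈ invF M x := by
  have := Submodule.eq_of_le_of_finrank_le (h.inv_le v hv) hle
  rw [this]; exact h.self_mem v hv

/-- local invariance: translation along the invariance space -/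
theorem LocStr.add_mem_iff {ι : Type*} {M : ι → Set E} {x : E} {r : ℝ} (h : LocStr M x r)
    (i : ι) {v w : E} (hv : ‖v‖ < r) (hvw : ‖v + w‖ < r) (hw : w ∈ invF M x) :
    x + (v + w) ∈ M i ↔ x + v ∈ M i := by
  rw [h.iff i _ hvw, h.iff i _ hv, tc_add_of_mem (mem_invF.1 hw i)]

end P073.TR
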