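import Vale.Agent.P073.TR.Sard
import Vale.Agent.P073.ConicalStrata

/-!
# P073, block TR: flow boxes at regular values of conical maps, transversality of translates
-/

open Set Metric Topology Filter MeasureTheory

namespace P073.TR

variable {E F G : Type*} [NormedAddCommGroup E] [NormedSpace ℝ E]
  [NormedAddCommGroup F] [NormedSpace ℝ F] [NormedAddCommGroup G] [NormedSpace ℝ G]

/-- the graph of `u` over the set `M` -/
def gr (u : E → F) (M : Set E) : Set (E × F) := {z | z.1 ∈ M ∧ z.2 = u z.1}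

theorem locConeAt_gr {u : E → F} {M : Set E} {x : E} (hM : LocConeAt M x) (hu : ConicalAt u x)
    (huc : ContinuousAt u x) (y : F) : LocConeAt (gr u M) (x, y) := by
  by_cases hy : y = u x
  · obtain ⟨r, hr, hM⟩ := hM
    obtain ⟨ρ, hρ, hu⟩ := hu
    refine ⟨min r ρ, lt_min hr hρ, fun v hv t ht => ?_⟩
    have hv1 : ‖v.1‖ ≤ min r ρ := (norm_fst_le v).trans hv
    have a1 := hM v.1 (hv1.trans (min_le_left _ _)) t ht
    have a2 := hu v.1 (hv1.trans (min_le_right _ _)) t ⟨ht.1.le, ht.2⟩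
    simp only [gr, mem_ofPred_eq, Prod.fst_add, Prod.smul_fst, Prod.snd_add, Prod.smul_snd]
    rw [a1, a2, hy, add_right_inj]
    refine and_congr_right fun _ => ?_
    constructor
    · intro h
      have := smul_right_injective F ht.1.ne' h
      rw [this]; abel
    · intro h
      rw [← h]; congr 1; abel
  · apply locConeAt_of_compl_mem_nhds
    have hc : ContinuousAt (fun z : E × F => z.2 - u z.1) (x, y) := by
      apply continuousAt_snd.sub
      exact ContinuousAt.comp (f := fun z : E × F => z.1) (x := (x, y)) (g := u) huc continuousAt_fst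
    have h0 : y - u x ≠ 0 := sub_ne_zero.2 hy
    filter_upwards [hc.eventually_ne h0] with z hz hz2
    exact hz (by rw [hz2.2]; simp)

/-- A flow box for `u` and the family `M` at `x`: translations by `σ s` translate the values of `u`
by `s` and leave the sets of the family invariant. -/
structure FlowBox {ι : Type*} (u : E → F) (M : ι → Set E) (x : E) (σ : F →ₗ[ℝ] E) (r : ℝ) :
    Prop where
  pos : 0 < r
  add : ∀ w s, ‖w‖ < r → ‖s‖ < r → u (x + w + σ s) = u (x + w) + s
  iff : ∀ i, ∀ w s, ‖w‖ < r → ‖s‖ < r → (x + w + σ s ∈ M i ↔ x + w ∈ M i)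

theorem FlowBox.mono {ι : Type*} {u : E → F} {M : ι → Set E} {x : E} {σ : F →ₗ[ℝ] E} {r r' : ℝ}
    (h : FlowBox u M x σ r) (hr' : 0 < r') (hle : r' ≤ r) : FlowBox u M x σ r' :=
  ⟨hr', fun w s hw hs => h.add w s (hw.trans_le hle) (hs.trans_le hle),
    fun i w s hw hs => h.iff i w s (hw.trans_le hle) (hs.trans_le hle)⟩

/-- the family of graphs: `none` is the graph over the whole space -/
def grF {ι : Type*} (u : E → F) (M : ι → Set E) : Option ι → Set (E × F)
  | none => gr u univ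
  | some i => gr u (M i)

theorem FlowBox.of_locStr {ι : Type*} [FiniteDimensional ℝ F] {u : E → F} {M : ι → Set E} {x : E}
    {r : ℝ} (huc : ContinuousAt u x) (h : LocStr (grF u M) (x, u x) r)
    (hL : (invF (grF u M) (x, u x)).map (LinearMap.snd ℝ E F) = ⊤) :
    ∃ (σ : F →ₗ[ℝ] E) (r' : ℝ), FlowBox u M x σ r' := by
  set V := invF (grF u M) (x, u x) with hV
  -- a linear section
  have hsurj : Function.Surjective ((LinearMap.snd ℝ E F).comp V.subtype) := by
    intro s
    have : s ∈ V.map (LinearMap.snd ℝ E F) := hL ▸ Submodule.mem_top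
    obtain ⟨z, hz, hzs⟩ := this
    exact ⟨⟨z, hz⟩, hzs⟩
  obtain ⟨τ, hτ⟩ := LinearMap.exists_rightInverse_of_surjective _ (LinearMap.range_eq_top.2 hsurj)
  set σ : F →ₗ[ℝ] E := (LinearMap.fst ℝ E F).comp (V.subtype.comp τ) with hσ
  have hmem : ∀ s : F, ((σ s, s) : E × F) ∈ V := by
    intro s
    have h1 : ((LinearMap.snd ℝ E F).comp V.subtype) (τ s) = s := by
      have := LinearMap.congr_fun hτ s
      simpa using this
    have h2 : ((σ s, s) : E × F) = (τ s : E × F) := by
      apply Prod.ext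
      · rfl
      · exact h1.symm
    rw [h2]; exact (τ s).2
  -- continuity bounds
  have hσc : Continuous σ := σ.continuous_of_finiteDimensional
  obtain ⟨δ, hδ, hδ'⟩ : ∃ δ > 0, ∀ w s, ‖w‖ < δ → ‖s‖ < δ →
      ‖w‖ < r ∧ ‖u (x + w) - u x‖ < r ∧ ‖w + σ s‖ < r ∧ ‖u (x + w) - u x + s‖ < r := by
    have c1 : ContinuousAt (fun z : E × F => u (x + z.1) - u x) (0, 0) := by
      apply ContinuousAt.sub _ continuousAt_const
      apply ContinuousAt.comp (f := fun z : E × F => x + z.1) (x := ((0:E), (0:F))) (g := u)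
      · simpa using huc
      · fun_prop
    have c2 : ContinuousAt (fun z : E × F => z.1 + σ z.2) (0, 0) := by
      apply Continuous.continuousAt; fun_prop
    have c3 : ContinuousAt (fun z : E × F => u (x + z.1) - u x + z.2) (0, 0) :=
      c1.add continuousAt_snd
    have d1 := c1.norm.eventually_lt_const (u := r) (by simpa using h.pos)
    have d2 := c2.norm.eventually_lt_const (u := r) (by simpa using h.pos)
    have d3 := c3.norm.eventually_lt_const (u := r) (by simpa using h.pos)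
    have d0 : ∀ᶠ z : E × F in 𝓝 (0, 0), ‖z.1‖ < r := by
      have : ContinuousAt (fun z : E × F => ‖z.1‖) (0, 0) := by fun_prop
      exact this.eventually_lt_const (by simpa using h.pos)
    obtain ⟨δ, hδ, hb⟩ := Metric.nhds_basis_ball.mem_iff.1 (((d0.and d1).and d2).and d3)
    refine ⟨δ, hδ, fun w s hw hs => ?_⟩
    have hz : ((w, s) : E × F) ∈ ball ((0:E), (0:F)) δ := by
      rw [mem_ball, Prod.dist_eq]
      simp only [dist_zero_right]
      exact max_lt hw hs
    obtain ⟨⟨⟨e0, e1⟩, e2⟩, e3⟩ := hb hz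
    exact ⟨e0, e1, e2, e3⟩
  have key : ∀ j w s, ‖w‖ < δ → ‖s‖ < δ →
      (((x, u x) + ((w, u (x + w) - u x) + (σ s, s)) : E × F) ∈ grF u M j ↔
        ((x, u x) + (w, u (x + w) - u x) : E × F) ∈ grF u M j) := by
    intro j w s hw hs
    obtain ⟨e0, e1, e2, e3⟩ := hδ' w s hw hs
    apply h.add_mem_iff j _ _ (hmem s)
    · exact max_lt e0 e1
    · exact max_lt e2 e3
  have hadd : ∀ w s, ‖w‖ < δ → ‖s‖ < δ → u (x + w + σ s) = u (x + w) + s := by
    intro w s hw hs
    have k := (key none w s hw hs).2 (by simp [grF, gr])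
    simp only [grF, gr, mem_ofPred_eq, Prod.fst_add, Prod.snd_add] at k
    rw [← add_assoc] at k
    rw [← k.2]; abel
  refine ⟨σ, δ, hδ, hadd, ?_⟩
  intro i w s hw hs
  have k := key (some i) w s hw hs
  simp only [grF, gr, mem_ofPred_eq, Prod.fst_add, Prod.snd_add] at k
  rw [← add_assoc, hadd w s hw hs] at k
  constructor
  · intro hm
    exact (k.1 ⟨hm, by abel⟩).1
  · intro hm
    exact (k.2 ⟨hm, by abel⟩).1

/-- **Flow boxes, real valued**: all but countably many values of a conical function are regular,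
for a finite family of conical sets. -/
theorem exists_flowBox_real {ι : Type*} [Finite ι] [FiniteDimensional ℝ E] {u : E → ℝ}
    {M : ι → Set E} {Ω : Set E} (hΩ : IsOpen Ω) (hu : ConicalOn u Ω) (huc : ContinuousOn u Ω)
    (H : ∀ i, ∀ x ∈ Ω, LocConeAt (M i) x) :
    ∃ C : Set ℝ, C.Countable ∧ ∀ x ∈ Ω, u x ∉ C →
      ∃ (σ : ℝ →ₗ[ℝ] E) (r : ℝ), FlowBox u M x σ r := by
  have hO : IsOpen (Ω ×ˢ (univ : Set ℝ)) := hΩ.prod isOpen_univ
  have HG : ∀ j : Option ι, ∀ z ∈ Ω ×ˢ (univ : Set ℝ), LocConeAt (grF u M j) z := by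
    rintro j ⟨x, y⟩ ⟨hx, -⟩
    have h1 := hu.conicalAt hΩ hx
    have h2 := huc.continuousAt (hΩ.mem_nhds hx)
    cases j with
    | none => exact locConeAt_gr (locConeAt_univ x) h1 h2 y
    | some i => exact locConeAt_gr (H i x hx) h1 h2 y
  obtain ⟨C, hC, hreg⟩ := sard_real hO HG (LinearMap.snd ℝ E ℝ)
  refine ⟨C, hC, fun x hx hxC => ?_⟩
  obtain ⟨v, hv, hv1⟩ := hreg (x, u x) ⟨hx, mem_univ _⟩ hxC
  obtain ⟨r, hr, -, hloc⟩ := exists_locStr hO HG (x := (x, u x)) ⟨hx, mem_univ _⟩
  refine FlowBox.of_locStr (huc.continuousAt (hΩ.mem_nhds hx)) hloc ?_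
  rw [eq_top_iff]
  intro s _
  exact ⟨s • v, Submodule.smul_mem _ _ hv, by rw [map_smul, hv1]; simp⟩

/-- **Flow boxes**: almost all values of a conical map are regular, for a finite family of conical
sets. -/
theorem exists_flowBox_ae {ι : Type*} [Finite ι] [FiniteDimensional ℝ E] [FiniteDimensional ℝ F]
    [MeasurableSpace F] [BorelSpace F] (μ : Measure F) [μ.IsAddHaarMeasure] {u : E → F}
    {M : ι → Set E} {Ω : Set E} (hΩ : IsOpen Ω) (hu : ConicalOn u Ω) (huc : ContinuousOn u Ω)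
    (H : ∀ i, ∀ x ∈ Ω, LocConeAt (M i) x) :
    ∀ᵐ t ∂μ, ∀ x ∈ Ω, u x = t → ∃ (σ : F →ₗ[ℝ] E) (r : ℝ), FlowBox u M x σ r := by
  have hO : IsOpen (Ω ×ˢ (univ : Set F)) := hΩ.prod isOpen_univ
  have HG : ∀ j : Option ι, ∀ z ∈ Ω ×ˢ (univ : Set F), LocConeAt (grF u M j) z := by
    rintro j ⟨x, y⟩ ⟨hx, -⟩
    have h1 := hu.conicalAt hΩ hx
    have h2 := huc.continuousAt (hΩ.mem_nhds hx)
    cases j with
    | none => exact locConeAt_gr (locConeAt_univ x) h1 h2 y
    | some i => exact locConeAt_gr (H i x hx) h1 h2 y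
  filter_upwards [sard μ hO HG (LinearMap.snd ℝ E F)] with t ht x hx hxt
  obtain ⟨r, hr, -, hloc⟩ := exists_locStr hO HG (x := (x, u x)) ⟨hx, mem_univ _⟩
  exact FlowBox.of_locStr (huc.continuousAt (hΩ.mem_nhds hx)) hloc
    (ht (x, u x) ⟨hx, mem_univ _⟩ hxt)

end P073.TR
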