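import Vale.Agent.P073.TR.Level2

/-!
# P073, block TR: generic level sets of conical functions on convex plane bodies
-/

open Set Metric Topology Filter

namespace P073.TR

open P073

universe w

variable {E : Type w} [NormedAddCommGroup E] [NormedSpace ℝ E]

/-- in the plane, at a boundary point of a convex body: one direction -/
theorem dirs_level_one [FiniteDimensional ℝ E] (h2 : Module.finrank ℝ E = 2) {ι : Type*}
    {u : E → ℝ} {τ : Set E} {M : ι → Set E} {i : ι} (hMi : M i = τ) {x : E} {c : ℝ}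
    {σ : ℝ →ₗ[ℝ] E} {r : ℝ} (h : FlowBox u M x σ r) (hu : ConicalAt u x) (hx : u x = c)
    (hτ : Convex ℝ τ) (hne : (interior τ).Nonempty) (hxτ : x ∈ τ) (hxi : x ∉ interior τ) :
    (dirs {y | y ∈ τ ∧ u y = c} x).ncard = 1 := by
  set e := σ 1 with he
  set T := tcone u x with hT
  have hTadd : ∀ v s, T (v + s • e) = T v + s := fun v s => h.tcone_add hu v s
  have hT0 : T 0 = 0 := tcone_zero u x
  have he0 : e ≠ 0 := by
    intro h0
    have := hTadd 0 1
    rw [h0, smul_zero, add_zero, hT0] at this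
    norm_num at this
  have htc : ∀ (v : E) (s : ℝ), (v + s • e ∈ tc τ x ↔ v ∈ tc τ x) := by
    intro v s
    have := h.tc_add i v s
    rwa [hMi] at this
  -- supporting functional
  obtain ⟨f, hf⟩ := geometric_hahn_banach_open_point hτ.interior isOpen_interior hxi
  have hfle : ∀ y ∈ τ, f y ≤ f x := by
    intro y hy
    have h1 : τ ⊆ closure (interior τ) := by
      rw [hτ.closure_interior_eq_closure_of_nonempty_interior hne]; exact subset_closure
    have h3 : closure (interior τ) ⊆ {y | f y ≤ f x} := by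
      apply closure_minimal
      · intro z hz; exact (hf z hz).le
      · exact isClosed_le f.continuous continuous_const
    exact h3 (h1 hy)
  have hftc : ∀ v ∈ tc τ x, f v ≤ 0 := by
    intro v hv
    obtain ⟨t, ht, h1⟩ := eventually_unique (P := fun t => x + t • v ∈ τ) hv
    have h3 := hfle _ h1
    rw [map_add, map_smul, smul_eq_mul] at h3
    have h4 : t * f v ≤ 0 := by linarith
    by_contra h5
    push Not at h5
    have := mul_pos ht h5
    linarith
  have hfe : f e = 0 := by
    have h0 : (0:E) ∈ tc τ x := zero_mem_tc hxτ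
    have h1 := hftc _ ((htc 0 1).2 h0)
    have h3 := hftc _ ((htc 0 (-1)).2 h0)
    rw [zero_add, one_smul] at h1
    rw [zero_add, neg_one_smul, map_neg] at h3
    linarith
  obtain ⟨y0, hy0⟩ := hne
  have hmemtc : ∀ y ∈ τ, y - x ∈ tc τ x := by
    intro y hy
    show ∀ᶠ t in 𝓝[>] (0:ℝ), x + t • (y - x) ∈ τ
    filter_upwards [Ioc_mem_nhdsGT (zero_lt_one (α := ℝ))] with t ht
    exact hτ.add_smul_sub_mem hxτ hy ⟨ht.1.le, ht.2⟩
  set w := y0 - x with hw
  have hwtc : w ∈ tc τ x := hmemtc y0 (interior_subset hy0)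
  have hfw : f w < 0 := by
    rw [hw, map_sub]; linarith [hf y0 hy0]
  -- coordinates
  have hli : LinearIndependent ℝ ![e, w] := by
    rw [LinearIndependent.pair_iff]
    intro s t hst
    have h1 := congrArg f hst
    rw [map_add, map_smul, map_smul, hfe, smul_zero, zero_add, smul_eq_mul, map_zero] at h1
    have ht : t = 0 := (mul_eq_zero.1 h1).resolve_right hfw.ne
    refine ⟨?_, ht⟩
    rw [ht, zero_smul, add_zero] at hst
    exact (smul_eq_zero.1 hst).resolve_right he0
  have hcoord : ∀ v : E, ∃ a b : ℝ, v = a • w + b • e := by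
    intro v
    have hspan : Submodule.span ℝ (range ![e, w]) = ⊤ := by
      apply Submodule.eq_top_of_finrank_eq
      rw [finrank_span_eq_card hli, h2]; rfl
    have hv : v ∈ Submodule.span ℝ (range ![e, w]) := hspan ▸ Submodule.mem_top
    rw [Matrix.range_cons, Matrix.range_cons, Matrix.range_empty, union_empty,
      singleton_union, Submodule.mem_span_pair] at hv
    obtain ⟨a, b, hab⟩ := hv
    exact ⟨b, a, by rw [← hab]; abel⟩
  set a1 := w + (-T w) • e with ha1
  have hTa1 : T a1 = 0 := by rw [ha1, hTadd]; ring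
  have h10 : a1 ≠ 0 := by
    intro h0
    have h1 := congrArg f h0
    rw [ha1, map_add, map_smul, hfe, smul_zero, add_zero, map_zero] at h1
    exact hfw.ne h1
  have n1 := norm_pos_iff.2 h10
  rw [ncard_eq_one]
  refine ⟨‖a1‖⁻¹ • a1, Subset.antisymm ?_ ?_⟩
  · rintro v ⟨hv1, hv2⟩
    rw [tc_level hu hx] at hv2
    have hTv : T v = 0 := hv2.2
    obtain ⟨a, b, rfl⟩ := hcoord v
    have ha0 : 0 ≤ a := by
      have h1 := hftc _ hv2.1
      rw [map_add, map_smul, map_smul, hfe, smul_zero, add_zero, smul_eq_mul] at h1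
      by_contra h3
      push Not at h3
      have := mul_pos_of_neg_of_neg h3 hfw
      linarith
    rcases eq_or_lt_of_le ha0 with ha | ha
    · exfalso
      rw [← ha, zero_smul] at hTv
      rw [hTadd, hT0] at hTv
      have hb : b = 0 := by linarith
      rw [← ha, hb, zero_smul, zero_smul, add_zero, norm_zero] at hv1
      exact zero_ne_one hv1
    · have e1 : a • w + b • e = a • (w + (b / a) • e) := by
        rw [smul_add, smul_smul, mul_div_cancel₀ _ ha.ne']
      have e2 : T (w + (b / a) • e) = 0 := by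
        have := hTv
        rw [e1, hT, hu.tcone_smul ha.le] at this
        rcases smul_eq_zero.1 this with h3 | h3
        · linarith
        · exact h3
      rw [hTadd] at e2
      have e3 : b / a = -T w := by linarith
      rw [e3, ← ha1] at e1
      rw [mem_singleton_iff, e1]
      rw [e1, norm_smul, Real.norm_of_nonneg ha.le] at hv1
      have : a = ‖a1‖⁻¹ := by field_simp; linarith
      rw [this]
  · intro v hv
    rw [mem_singleton_iff] at hv
    subst hv
    refine ⟨?_, (tc_level hu hx).2 ⟨?_, ?_⟩⟩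
    · rw [norm_smul, norm_inv, norm_norm, inv_mul_cancel₀ n1.ne']
    · rw [tc_smul_iff (inv_pos.2 n1)]
      exact (htc _ _).2 hwtc
    · show T (‖a1‖⁻¹ • a1) = 0
      rw [hT, hu.tcone_smul (inv_nonneg.2 n1.le), ← hT, hTa1, smul_zero]

/-- the projection onto a box -/
noncomputable def clamp (a b : Fin 2 → ℝ) (x : Fin 2 → ℝ) : Fin 2 → ℝ :=
  fun i => max (a i) (min (b i) (x i))

theorem continuous_clamp (a b : Fin 2 → ℝ) : Continuous (clamp a b) := by
  unfold clamp; fun_prop

theorem conicalOn_clamp (a b : Fin 2 → ℝ) : ConicalOn (clamp a b) univ := by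
  intro x hx
  refine conicalWithinAt_pi (locCone_univ.conicalSet x hx) fun i => ?_
  have hX : ConicalSet (univ : Set (Fin 2 → ℝ)) := locCone_univ.conicalSet
  have h1 : ConicalOn (fun y : Fin 2 → ℝ => y i) univ :=
    conicalOn_linear (LinearMap.proj i : (Fin 2 → ℝ) →ₗ[ℝ] ℝ) hX
  exact ((conicalOn_const (a i) hX).rmax ((conicalOn_const (b i) hX).rmin h1 (by fun_prop)
    (by fun_prop)) (by fun_prop) (by fun_prop)) x hx

theorem clamp_mem {a b : Fin 2 → ℝ} (hab : ∀ i, a i ≤ b i) (x : Fin 2 → ℝ) :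
    clamp a b x ∈ Icc a b :=
  ⟨fun i => le_max_left _ _, fun i => max_le (hab i) (min_le_left _ _)⟩

theorem clamp_eq {a b x : Fin 2 → ℝ} (hx : x ∈ Icc a b) : clamp a b x = x := by
  funext i
  show max (a i) (min (b i) (x i)) = x i
  rw [min_eq_right (hx.2 i), max_eq_right (hx.1 i)]

/-- generic levels in a convex body of the plane, the function being defined everywhere -/
theorem exists_generic_body [FiniteDimensional ℝ E] (h2 : Module.finrank ℝ E = 2) {u : E → ℝ}
    (hu : ConicalOn u univ) (huc : Continuous u) {τ : Set E} (hτ : Convex ℝ τ)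
    (hcomp : IsCompact τ) (hcone : LocCone τ) (hne : (interior τ).Nonempty) :
    ∃ N : Set ℝ, N.Countable ∧ ∀ t ∉ N, Curve {x | x ∈ τ ∧ u x = t} ∧
      ∀ x ∈ τ, u x = t → (x ∈ interior τ → (dirs {x | x ∈ τ ∧ u x = t} x).ncard = 2) ∧
        (x ∉ interior τ → (dirs {x | x ∈ τ ∧ u x = t} x).ncard = 1) := by
  obtain ⟨N, hN, hreg⟩ := exists_flowBox_real (ι := Unit) (M := fun _ => τ) isOpen_univ
    hu huc.continuousOn (fun _ x _ => hcone x)
  refine ⟨N, hN, fun t ht => ?_⟩
  have hd2 : ∀ x ∈ τ, u x = t → x ∈ interior τ →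
      (dirs {x | x ∈ τ ∧ u x = t} x).ncard = 2 := by
    intro x hx hxt hxi
    obtain ⟨σ, r, hb⟩ := hreg x (mem_univ x) (by rw [hxt]; exact ht)
    exact dirs_level_two h2 hb (hu.conicalAt isOpen_univ (mem_univ x)) hxt
      (mem_interior_iff_mem_nhds.1 hxi)
  have hd1 : ∀ x ∈ τ, u x = t → x ∉ interior τ →
      (dirs {x | x ∈ τ ∧ u x = t} x).ncard = 1 := by
    intro x hx hxt hxi
    obtain ⟨σ, r, hb⟩ := hreg x (mem_univ x) (by rw [hxt]; exact ht)
    exact dirs_level_one h2 (M := fun _ : Unit => τ) (i := ()) rfl hb (hu.conicalAt isOpen_univ (mem_univ x)) hxt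
      hτ hne hx hxi
  refine ⟨⟨?_, ?_, ?_⟩, fun x hx hxt => ⟨hd2 x hx hxt, hd1 x hx hxt⟩⟩
  · have : {x | x ∈ τ ∧ u x = t} = τ ∩ u ⁻¹' {t} := by ext x; rfl
    rw [this]
    exact hcomp.inter_right (isClosed_singleton.preimage huc)
  · rintro x ⟨hx, hxt⟩
    exact locConeAt_level (hu.conicalAt isOpen_univ (mem_univ x)) (hcone x) hxt
  · rintro x ⟨hx, hxt⟩
    by_cases hxi : x ∈ interior τ
    · exact Or.inr (hd2 x hx hxt hxi)
    · exact Or.inl (hd1 x hx hxt hxi)

theorem interior_box_nonempty {a b : Fin 2 → ℝ} (hab : ∀ i, a i < b i) :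
    (interior (Icc a b)).Nonempty := by
  rw [← pi_univ_Icc, interior_pi_set finite_univ]
  refine ⟨fun i => (a i + b i) / 2, fun i _ => ?_⟩
  show (a i + b i) / 2 ∈ interior (Icc (a i) (b i))
  rw [interior_Icc]
  exact ⟨by linarith [hab i], by linarith [hab i]⟩

/-- **Generic levels in a rectangle**: circles in the open rectangle and arcs with end points on the
boundary. -/
theorem exists_generic_curves (a b : Fin 2 → ℝ) (hab : ∀ i, a i < b i) (v : (Fin 2 → ℝ) → ℝ)
    (hvc : ContinuousOn v (Icc a b)) (hv : ConicalOn v (Icc a b)) :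
    ∃ N : Set ℝ, N.Countable ∧ ∀ t ∉ N,
      Curve {x | x ∈ Icc a b ∧ v x = t} ∧
      ∀ x ∈ Icc a b, v x = t → (x ∈ interior (Icc a b) →
        (dirs {x | x ∈ Icc a b ∧ v x = t} x).ncard = 2) ∧ (x ∉ interior (Icc a b) →
        (dirs {x | x ∈ Icc a b ∧ v x = t} x).ncard = 1) := by
  have hmaps : MapsTo (clamp a b) univ (Icc a b) := fun x _ => clamp_mem (fun i => (hab i).le) x
  have huc : Continuous (v ∘ clamp a b) := by
    rw [← continuousOn_univ]
    exact hvc.comp (continuous_clamp a b).continuousOn hmaps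
  have hucon : ConicalOn (v ∘ clamp a b) univ :=
    hv.comp (conicalOn_clamp a b) hmaps (continuous_clamp a b).continuousOn
  have hset : ∀ t, {x | x ∈ Icc a b ∧ (v ∘ clamp a b) x = t} = {x | x ∈ Icc a b ∧ v x = t} := by
    intro t
    ext x
    simp only [mem_ofPred_eq]
    refine and_congr_right fun hx => ?_
    show v (clamp a b x) = t ↔ v x = t
    rw [clamp_eq hx]
  obtain ⟨N, hN, h⟩ := exists_generic_body (by simp) hucon huc (convex_Icc a b) isCompact_Icc
    (locCone_Icc_pi a b) (interior_box_nonempty hab)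
  refine ⟨N, hN, fun t ht => ?_⟩
  obtain ⟨h1, h3⟩ := h t ht
  rw [hset] at h1
  refine ⟨h1, fun x hx hxt => ?_⟩
  have h4 := h3 x hx (by show v (clamp a b x) = t; rw [clamp_eq hx]; exact hxt)
  rw [hset] at h4
  exact h4

end P073.TR
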