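import Vale.Agent.P073.TR.FlowBox

/-!
# P073, block TR: transversality of generic translates
-/

open Set Metric Topology Filter MeasureTheory

namespace P073.TR

variable {E F G : Type*} [NormedAddCommGroup E] [NormedSpace ℝ E]
  [NormedAddCommGroup F] [NormedSpace ℝ F] [NormedAddCommGroup G] [NormedSpace ℝ G]

theorem tc_prod_univ (M : Set E) (a : E) (b : F) :
    tc (M ×ˢ (univ : Set F)) (a, b) = tc M a ×ˢ (univ : Set F) := by
  ext ⟨v, w⟩
  simp [tc]

theorem tc_univ_prod (N : Set F) (a : E) (b : F) :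
    tc ((univ : Set E) ×ˢ N) (a, b) = (univ : Set E) ×ˢ tc N b := by
  ext ⟨v, w⟩
  simp [tc]

theorem locConeAt_prod_univ {M : Set E} {a : E} (h : LocConeAt M a) (b : F) :
    LocConeAt (M ×ˢ (univ : Set F)) (a, b) := by
  obtain ⟨r, hr, h⟩ := h
  refine ⟨r, hr, fun v hv t ht => ?_⟩
  have := h v.1 ((norm_fst_le v).trans hv) t ht
  simpa using this

theorem locConeAt_univ_prod {N : Set F} {b : F} (h : LocConeAt N b) (a : E) :
    LocConeAt ((univ : Set E) ×ˢ N) (a, b) := by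
  obtain ⟨r, hr, h⟩ := h
  refine ⟨r, hr, fun v hv t ht => ?_⟩
  have := h v.2 ((norm_snd_le v).trans hv) t ht
  simpa using this

theorem inv_prod_univ {M : Set E} {a : E} {b : F} {z : E × F}
    (hz : z ∈ inv (M ×ˢ (univ : Set F)) (a, b)) : z.1 ∈ inv M a := by
  intro s u
  have := hz s (u, 0)
  rw [tc_prod_univ] at this
  simpa using this

theorem inv_univ_prod {N : Set F} {a : E} {b : F} {z : E × F}
    (hz : z ∈ inv ((univ : Set E) ×ˢ N) (a, b)) : z.2 ∈ inv N b := by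
  intro s u
  have := hz s (0, u)
  rw [tc_univ_prod] at this
  simpa using this

/-- the two families on the product space -/
def prF {ι κ : Type*} (M : ι → Set E) (N : κ → Set F) : ι ⊕ κ → Set (E × F)
  | Sum.inl i => M i ×ˢ univ
  | Sum.inr j => univ ×ˢ N j

/-- **Generic translates are transverse**: for almost all `t`, the invariance spaces of the family
`M` at `a` and of the family `N` at `a + t` span the space. -/
theorem ae_transverse {ι κ : Type*} [Finite ι] [Finite κ] [FiniteDimensional ℝ E]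
    [MeasurableSpace E] [BorelSpace E] (μ : Measure E) [μ.IsAddHaarMeasure]
    {M : ι → Set E} {N : κ → Set E} {Ω Λ : Set E} (hΩ : IsOpen Ω) (hΛ : IsOpen Λ)
    (HM : ∀ i, ∀ x ∈ Ω, LocConeAt (M i) x) (HN : ∀ j, ∀ x ∈ Λ, LocConeAt (N j) x) :
    ∀ᵐ t ∂μ, ∀ a ∈ Ω, a + t ∈ Λ → invF M a ⊔ invF N (a + t) = ⊤ := by
  have hO : IsOpen (Ω ×ˢ Λ) := hΩ.prod hΛ
  have HP : ∀ k : ι ⊕ κ, ∀ z ∈ Ω ×ˢ Λ, LocConeAt (prF M N k) z := by
    rintro (i | j) ⟨a, b⟩ ⟨ha, hb⟩
    · exact locConeAt_prod_univ (HM i a ha) b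
    · exact locConeAt_univ_prod (HN j b hb) a
  filter_upwards [sard μ hO HP (LinearMap.snd ℝ E E - LinearMap.fst ℝ E E)] with t ht a ha hb
  have h1 := ht (a, a + t) ⟨ha, hb⟩ (by simp)
  rw [eq_top_iff] at h1 ⊢
  intro w _
  obtain ⟨z, hz, hzw⟩ := h1 (show w ∈ ⊤ from Submodule.mem_top)
  have z1 : z.1 ∈ invF M a := mem_invF.2 fun i => inv_prod_univ (mem_invF.1 hz (Sum.inl i))
  have z2 : z.2 ∈ invF N (a + t) := mem_invF.2 fun j => inv_univ_prod (mem_invF.1 hz (Sum.inr j))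
  have : w = -z.1 + z.2 := by rw [← hzw]; simp; abel
  rw [this]
  exact Submodule.add_mem_sup (Submodule.neg_mem _ z1) z2

end P073.TR
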